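import Vale.Agent.P359.Spin.Pair

/-!
# P359: the exchange kernel

`kerK` is `-2 Wᵀ S W` with `W` the pair intertwiner tensored with the identity and `S` the
exchange of the last two slots, so it commutes with the spin operators. In relative momentum
`0, 1, 3` it is `-1`, because the antisymmetrisation of a translation invariant state of degree
`1, 2, 4` in three variables vanishes.
-/

namespace Vale.Agent.P359

open Finset Matrix
open scoped Kronecker

/-- Three orbital slots. -/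
abbrev Orb3 (Q : ℕ) : Type := (Orb Q × Orb Q) × Orb Q

/-- The spin of three orbital slots. -/
noncomputable def spin3 (Q : ℕ) : Spin (Orb3 Q) := ((spin Q).prod (spin Q)).prod (spin Q)

/-- The spin of a pair and an orbital. -/
noncomputable def pairOrbSpin (Q : ℕ) : Spin (Pair Q × Orb Q) := (pairSpin Q).prod (spin Q)

theorem isRep_pairOrbSpin (Q : ℕ) : (pairOrbSpin Q).IsRep :=
  (isRep_pairSpin Q).prod (isRep_spin Q)

theorem isRep_spin3 (Q : ℕ) : (spin3 Q).IsRep :=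
  ((isRep_spin Q).prod (isRep_spin Q)).prod (isRep_spin Q)

/-- The pair intertwiner with one spectator. -/
noncomputable def pairW (Q : ℕ) : Matrix (Orb3 Q) (Pair Q × Orb Q) ℝ :=
  pairV Q ⊗ₖ (1 : Matrix (Orb Q) (Orb Q) ℝ)

theorem intertwines_pairW (Q : ℕ) : Spin.Intertwines (pairOrbSpin Q) (spin3 Q) (pairW Q) :=
  (intertwines_pairV Q).kronecker_one (spin Q)

/-- Exchange of the first two slots. -/
def swap12 {α : Type*} : (α × α) × α ≃ (α × α) × α where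
  toFun x := ((x.1.2, x.1.1), x.2)
  invFun x := ((x.1.2, x.1.1), x.2)
  left_inv _ := rfl
  right_inv _ := rfl

/-- Exchange of the last two slots. -/
def swap23 {α : Type*} : (α × α) × α ≃ (α × α) × α where
  toFun x := ((x.1.1, x.2), x.1.2)
  invFun x := ((x.1.1, x.2), x.1.2)
  left_inv _ := rfl
  right_inv _ := rfl

/-- The cyclic shift. -/
def cyc {α : Type*} : (α × α) × α ≃ (α × α) × α where
  toFun x := ((x.1.2, x.2), x.1.1)
  invFun x := ((x.2, x.1.1), x.1.2)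
  left_inv _ := rfl
  right_inv _ := rfl

theorem triple_apply {α : Type*} [DecidableEq α] (A : Matrix α α ℝ) (x y : (α × α) × α) :
    ((A ⊗ₖ (1 : Matrix α α ℝ) + (1 : Matrix α α ℝ) ⊗ₖ A) ⊗ₖ (1 : Matrix α α ℝ) +
        (1 : Matrix (α × α) (α × α) ℝ) ⊗ₖ A) x y =
      A x.1.1 y.1.1 * (if x.1.2 = y.1.2 ∧ x.2 = y.2 then 1 else 0) +
      A x.1.2 y.1.2 * (if x.1.1 = y.1.1 ∧ x.2 = y.2 then 1 else 0) +
      A x.2 y.2 * (if x.1.1 = y.1.1 ∧ x.1.2 = y.1.2 then 1 else 0) := by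
  simp only [Matrix.add_apply, Matrix.kroneckerMap_apply, Matrix.one_apply, Prod.ext_iff, ite_and]
  split_ifs <;> ring

theorem spin3_E_apply (Q : ℕ) (x y : Orb3 Q) :
    (spin3 Q).E x y =
      (spin Q).E x.1.1 y.1.1 * (if x.1.2 = y.1.2 ∧ x.2 = y.2 then 1 else 0) +
      (spin Q).E x.1.2 y.1.2 * (if x.1.1 = y.1.1 ∧ x.2 = y.2 then 1 else 0) +
      (spin Q).E x.2 y.2 * (if x.1.1 = y.1.1 ∧ x.1.2 = y.1.2 then 1 else 0) :=
  triple_apply (spin Q).E x y

theorem spin3_Z_apply (Q : ℕ) (x y : Orb3 Q) :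
    (spin3 Q).Z x y =
      (spin Q).Z x.1.1 y.1.1 * (if x.1.2 = y.1.2 ∧ x.2 = y.2 then 1 else 0) +
      (spin Q).Z x.1.2 y.1.2 * (if x.1.1 = y.1.1 ∧ x.2 = y.2 then 1 else 0) +
      (spin Q).Z x.2 y.2 * (if x.1.1 = y.1.1 ∧ x.1.2 = y.1.2 then 1 else 0) :=
  triple_apply (spin Q).Z x y

theorem spin3_perm (Q : ℕ) (x y : Orb3 Q) :
    ((spin3 Q).E (cyc x) (cyc y) = (spin3 Q).E x y ∧
      (spin3 Q).E (swap23 x) (swap23 y) = (spin3 Q).E x y) ∧
      (spin3 Q).Z (swap23 x) (swap23 y) = (spin3 Q).Z x y := by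
  refine ⟨⟨?_, ?_⟩, ?_⟩ <;>
  · simp only [spin3_E_apply, spin3_Z_apply, cyc, swap23, Equiv.coe_fn_mk, ite_and]
    split_ifs <;> ring

theorem mul_exchange {α : Type*} [Fintype α] [DecidableEq α] (σ : α ≃ α) (hσ : ∀ x, σ (σ x) = x)
    {A : Matrix α α ℝ} (hA : ∀ x y, A (σ x) (σ y) = A x y) :
    (1 : Matrix α α ℝ).submatrix σ id * A = A * (1 : Matrix α α ℝ).submatrix σ id := by
  ext x y
  simp only [Matrix.mul_apply, Matrix.submatrix_apply, Matrix.one_apply, id]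
  rw [Finset.sum_eq_single (σ x) (fun z _ hz => by simp [Ne.symm hz]) (by simp),
    Finset.sum_eq_single (σ y) (fun z _ hz => by
      rw [if_neg fun e => hz (by rw [← e, hσ]), mul_zero]) (by simp),
    if_pos rfl, one_mul, if_pos (hσ y), mul_one, ← hA x (σ y), hσ]

theorem invariant_exchange (Q : ℕ) :
    (spin3 Q).Invariant ((1 : Matrix (Orb3 Q) (Orb3 Q) ℝ).submatrix swap23 id) := by
  refine ⟨mul_exchange _ (fun _ => rfl) fun x y => (spin3_perm Q x y).1.2,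
    mul_exchange _ (fun _ => rfl) fun x y => ?_,
    mul_exchange _ (fun _ => rfl) fun x y => (spin3_perm Q x y).2⟩
  exact (spin3_perm Q y x).1.2

theorem kerK_eq (Q : ℕ) :
    kerK Q = (-2 : ℝ) •
      ((pairW Q)ᵀ * (1 : Matrix (Orb3 Q) (Orb3 Q) ℝ).submatrix swap23 id * pairW Q) := by
  ext p q
  obtain ⟨M, y⟩ := p
  obtain ⟨M', y'⟩ := q
  have h1 : ∀ z : Orb3 Q, ((pairW Q)ᵀ * (1 : Matrix (Orb3 Q) (Orb3 Q) ℝ).submatrix swap23 id)
      (M, y) z = pairW Q (swap23 z) (M, y) := by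
    intro z
    simp only [Matrix.mul_apply, Matrix.transpose_apply, Matrix.submatrix_apply, Matrix.one_apply,
      id]
    rw [Finset.sum_eq_single (swap23 z) (fun w _ hw => by
      rw [if_neg fun e => hw (by rw [← e]; rfl), mul_zero]) (by simp)]
    simp [swap23]
  rw [Matrix.smul_apply, smul_eq_mul, Matrix.mul_apply, kerK]
  rw [Finset.sum_congr rfl fun z _ => congrArg (fun r => r * pairW Q z (M', y')) (h1 z)]
  simp only [Fintype.sum_prod_type, pairW, Matrix.kroneckerMap_apply, Matrix.one_apply,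
    swap23, Equiv.coe_fn_mk, pairV]
  congr 1
  refine Finset.sum_congr rfl fun a _ => ?_
  rw [Finset.sum_eq_single y (fun b _ hb => by simp [hb]) (by simp),
    Finset.sum_eq_single y' (fun c _ hc => by simp [hc]) (by simp)]
  simp [mul_comm]

/-- `kerK` commutes with the spin operators. -/
theorem invariant_kerK (Q : ℕ) : (pairOrbSpin Q).Invariant (kerK Q) := by
  rw [kerK_eq]
  exact ((intertwines_pairW Q).invariant_compress (isRep_pairOrbSpin Q).Z_isSymm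
    (isRep_spin3 Q).Z_isSymm (invariant_exchange Q)).smul _

theorem pairW_apply_mulVec (Q : ℕ) (u : Pair Q × Orb Q → ℝ) (x : Orb3 Q) :
    (pairW Q *ᵥ u) x = ∑ M, pairVec Q M x.1.1 x.1.2 * u (M, x.2) := by
  simp [pairW, Matrix.mulVec, dotProduct, Fintype.sum_prod_type, Matrix.kroneckerMap_apply,
    Matrix.one_apply, pairV]

theorem pairW_swap12 (Q : ℕ) (u : Pair Q × Orb Q → ℝ) (x : Orb3 Q) :
    (pairW Q *ᵥ u) (swap12 x) = -(pairW Q *ᵥ u) x := by
  rw [pairW_apply_mulVec, pairW_apply_mulVec, ← Finset.sum_neg_distrib]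
  refine Finset.sum_congr rfl fun M _ => ?_
  show pairVec Q M x.1.2 x.1.1 * u (M, x.2) = _
  rw [pairVec_anti]; ring

theorem pairWt_pairW (Q : ℕ) : (pairW Q)ᵀ * pairW Q = 1 := by
  rw [pairW, ← Matrix.kroneckerMap_transpose, Matrix.transpose_one, ← Matrix.mul_kronecker_mul,
    Matrix.one_mul]
  convert Matrix.one_kronecker_one (α := ℝ) (m := Pair Q) (n := Orb Q) using 2
  ext M M'
  simp only [Matrix.mul_apply, Matrix.transpose_apply, pairV, Fintype.sum_prod_type,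
    Matrix.one_apply]
  exact pairVec_ortho Q M M'

theorem pairWt_swap12 (Q : ℕ) (h : Orb3 Q → ℝ) :
    (pairW Q)ᵀ *ᵥ (fun x => h (swap12 x)) = -((pairW Q)ᵀ *ᵥ h) := by
  funext p
  simp only [Matrix.mulVec, dotProduct, Pi.neg_apply, Matrix.transpose_apply]
  rw [← Finset.sum_neg_distrib, ← Equiv.sum_comp (swap12 (α := Orb Q))]
  refine Finset.sum_congr rfl fun x _ => ?_
  have h1 : pairW Q (swap12 x) p = -pairW Q x p := by
    show pairVec Q p.1 x.1.2 x.1.1 * (1 : Matrix (Orb Q) (Orb Q) ℝ) x.2 p.2 = _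
    rw [pairVec_anti]
    simp [pairW, pairV, Matrix.kroneckerMap_apply]
  rw [h1]
  show -pairW Q x p * h x = -(pairW Q x p * h x)
  ring

/-- A state killed by antisymmetrisation of its three slots has `kerK u = -u`. -/
theorem kerK_neg_of_killed {Q : ℕ} {u : Pair Q × Orb Q → ℝ}
    (h : ∀ x, (pairW Q *ᵥ u) x + (pairW Q *ᵥ u) (cyc x) + (pairW Q *ᵥ u) (cyc (cyc x)) = 0) :
    kerK Q *ᵥ u = -u := by
  set g := pairW Q *ᵥ u with hg
  set Sg : Orb3 Q → ℝ := fun x => g (swap23 x) with hSg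
  have hK : kerK Q *ᵥ u = (-2 : ℝ) • ((pairW Q)ᵀ *ᵥ Sg) := by
    rw [kerK_eq, Matrix.smul_mulVec, ← Matrix.mulVec_mulVec, ← Matrix.mulVec_mulVec, ← hg]
    congr 2
    funext x
    simp [Matrix.mulVec, dotProduct, Matrix.one_apply, hSg]
  have h2 : (fun x => g (cyc (cyc x))) = -Sg := by
    funext x
    show g ((x.2, x.1.1), x.1.2) = -g ((x.1.1, x.2), x.1.2)
    exact pairW_swap12 Q u ((x.1.1, x.2), x.1.2)
  have h3 : (fun x => g (cyc x)) = fun x => Sg (swap12 x) := by funext x; rfl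
  have h4 : (pairW Q)ᵀ *ᵥ (g + (fun x => g (cyc x)) + fun x => g (cyc (cyc x))) = 0 := by
    rw [show (g + (fun x => g (cyc x)) + fun x => g (cyc (cyc x))) = 0 from funext h,
      Matrix.mulVec_zero]
  rw [Matrix.mulVec_add, Matrix.mulVec_add, h2, h3, pairWt_swap12, Matrix.mulVec_neg, hg,
    Matrix.mulVec_mulVec, pairWt_pairW, Matrix.one_mulVec] at h4
  rw [hK]
  funext p
  have := congrFun h4 p
  simp only [Pi.add_apply, Pi.neg_apply, Pi.zero_apply] at this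
  simp only [Pi.smul_apply, Pi.neg_apply, smul_eq_mul]
  linarith

/-- The bottom weight of a pair and an orbital, plus `k`. -/
noncomputable def relWt (Q k : ℕ) : ℝ := (k : ℝ) - ((Q : ℝ) - 1) - (Q : ℝ) / 2

theorem relWt_dim {Q k m : ℕ} (h : m + 2 * k + 2 = 3 * Q) : -2 * relWt Q k = m := by
  have : (m : ℝ) + 2 * k + 2 = 3 * Q := by exact_mod_cast h
  rw [relWt]; linarith

theorem perm013 {a b c : ℕ} (hab : a ≠ b) (hbc : b ≠ c) (hca : c ≠ a) (h : a + b + c = 4) :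
    (a = 0 ∧ b = 1 ∧ c = 3) ∨ (a = 1 ∧ b = 3 ∧ c = 0) ∨ (a = 3 ∧ b = 0 ∧ c = 1) ∨
      (a = 1 ∧ b = 0 ∧ c = 3) ∨ (a = 0 ∧ b = 3 ∧ c = 1) ∨ (a = 3 ∧ b = 1 ∧ c = 0) := by
  have ha : a ≤ 4 := by omega
  have hb : b ≤ 4 := by omega
  interval_cases a <;> interval_cases b <;> simp_all <;> omega

/-- An alternating function killed by `E`, supported in total degree `1, 2` or `4`, vanishes. -/
theorem alt_vanish {Q k : ℕ} (hk : k = 0 ∨ k = 1 ∨ k = 3) (f : Orb3 Q → ℝ)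
    (hc : ∀ x, f (cyc x) = f x) (hs : ∀ x, f (swap12 x) = -f x)
    (hrep : ∀ x : Orb3 Q, x.1.1 = x.1.2 ∨ x.1.2 = x.2 ∨ x.2 = x.1.1 → f x = 0)
    (hsupp : ∀ x : Orb3 Q, (x.1.1 : ℕ) + x.1.2 + x.2 ≠ k + 1 → f x = 0)
    (hE : (spin3 Q).E *ᵥ f = 0) (x : Orb3 Q) : f x = 0 := by
  by_cases hr : x.1.1 = x.1.2 ∨ x.1.2 = x.2 ∨ x.2 = x.1.1
  · exact hrep x hr
  by_cases hsum : (x.1.1 : ℕ) + x.1.2 + x.2 = k + 1
  swap
  · exact hsupp x hsum
  simp only [Fin.ext_iff, not_or] at hr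
  obtain rfl : k = 3 := by omega
  have hQ : 3 ≤ Q := by have := x.1.1.2; have := x.1.2.2; have := x.2.2; omega
  obtain ⟨o₀, ho₀⟩ : ∃ i : Orb Q, (i : ℕ) = 0 := ⟨⟨0, by omega⟩, rfl⟩
  obtain ⟨o₁, ho₁⟩ : ∃ i : Orb Q, (i : ℕ) = 1 := ⟨⟨1, by omega⟩, rfl⟩
  obtain ⟨o₂, ho₂⟩ : ∃ i : Orb Q, (i : ℕ) = 2 := ⟨⟨2, by omega⟩, rfl⟩
  obtain ⟨o₃, ho₃⟩ : ∃ i : Orb Q, (i : ℕ) = 3 := ⟨⟨3, by omega⟩, rfl⟩
  have hkey : f ((o₀, o₁), o₃) = 0 := by
    have hsum1 : ((spin3 Q).E *ᵥ f) ((o₀, o₁), o₂) = lad Q 2 * f ((o₀, o₁), o₃) := by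
      rw [Matrix.mulVec, dotProduct, Finset.sum_eq_single ((o₀, o₁), o₃)]
      · rw [spin3_E_apply]
        simp [spin, lad, Fin.ext_iff, ho₀, ho₁, ho₂, ho₃]
      · intro y _ hy
        by_cases hfy : f y = 0
        · rw [hfy, mul_zero]
        have h1 : (y.1.1 : ℕ) + y.1.2 + y.2 = 4 := not_not.1 fun h => hfy (hsupp y h)
        have h2 : ¬((y.1.1 : ℕ) = y.1.2 ∨ (y.1.2 : ℕ) = y.2 ∨ (y.2 : ℕ) = y.1.1) := fun h =>
          hfy (hrep y (by simpa only [Fin.ext_iff] using h))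
        have h3 : ¬((y.1.1 : ℕ) = 0 ∧ (y.1.2 : ℕ) = 1) := fun h =>
          hy (Prod.ext (Prod.ext (Fin.ext (h.1.trans ho₀.symm)) (Fin.ext (h.2.trans ho₁.symm)))
            (Fin.ext (by rw [ho₃]; omega)))
        rw [spin3_E_apply]
        simp only [Fin.ext_iff, ho₀, ho₁, ho₂]
        rw [if_neg (by omega), if_neg (by omega), if_neg (by omega)]
        simp
      · simp
    have hl : lad Q 2 ≠ 0 := by
      have h3 : (3 : ℝ) ≤ Q := by exact_mod_cast hQ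
      exact (Real.sqrt_pos.2 (mul_pos (by norm_num) (by push_cast; linarith))).ne'
    rw [hE] at hsum1
    exact (mul_eq_zero.1 hsum1.symm).resolve_left hl
  have hkey' : f ((o₁, o₀), o₃) = 0 := by
    have := hs ((o₀, o₁), o₃)
    rw [hkey, neg_zero] at this
    exact this
  have mk : ∀ i j l : Orb Q, (x.1.1 : ℕ) = i → (x.1.2 : ℕ) = j → (x.2 : ℕ) = l →
      f ((i, j), l) = 0 → f x = 0 := fun i j l h1 h2 h3 h4 => by
    rwa [show x = ((i, j), l) from Prod.ext (Prod.ext (Fin.ext h1) (Fin.ext h2)) (Fin.ext h3)]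
  have c1 : ∀ i j l : Orb Q, f ((i, j), l) = 0 → f ((j, l), i) = 0 := fun i j l h => by
    exact (hc ((i, j), l)).trans h
  rcases perm013 hr.1 hr.2.1 hr.2.2 hsum with
    ⟨a, b, c⟩ | ⟨a, b, c⟩ | ⟨a, b, c⟩ | ⟨a, b, c⟩ | ⟨a, b, c⟩ | ⟨a, b, c⟩
  · exact mk o₀ o₁ o₃ (by omega) (by omega) (by omega) hkey
  · exact mk o₁ o₃ o₀ (by omega) (by omega) (by omega) (c1 _ _ _ hkey)
  · exact mk o₃ o₀ o₁ (by omega) (by omega) (by omega) (c1 _ _ _ (c1 _ _ _ hkey))
  · exact mk o₁ o₀ o₃ (by omega) (by omega) (by omega) hkey'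
  · exact mk o₀ o₃ o₁ (by omega) (by omega) (by omega) (c1 _ _ _ hkey')
  · exact mk o₃ o₁ o₀ (by omega) (by omega) (by omega) (c1 _ _ _ (c1 _ _ _ hkey'))

/-- Relative momenta `0, 1, 3` are killed by antisymmetrisation. -/
theorem killed_of_isHW {Q k : ℕ} (hk : k = 0 ∨ k = 1 ∨ k = 3) {u : Pair Q × Orb Q → ℝ}
    (hu : (pairOrbSpin Q).IsHW (relWt Q k) u) (x : Orb3 Q) :
    (pairW Q *ᵥ u) x + (pairW Q *ᵥ u) (cyc x) + (pairW Q *ᵥ u) (cyc (cyc x)) = 0 := by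
  set g := pairW Q *ᵥ u with hg
  have hgw := (intertwines_pairW Q).isHW hu
  rw [← hg] at hgw
  set f : Orb3 Q → ℝ := fun x => g x + g (cyc x) + g (cyc (cyc x)) with hf
  show f x = 0
  have hc : ∀ x : Orb3 Q, f (cyc x) = f x := fun x => by
    show g (cyc x) + g (cyc (cyc x)) + g (cyc (cyc (cyc x))) = _
    rw [show cyc (cyc (cyc x)) = x from rfl]; simp only [hf]; ring
  have hs : ∀ x : Orb3 Q, f (swap12 x) = -f x := fun x => by
    have e1 := pairW_swap12 Q u x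
    have e2 := pairW_swap12 Q u (cyc x)
    have e3 := pairW_swap12 Q u (cyc (cyc x))
    rw [← hg] at e1 e2 e3
    show g (swap12 x) + g (cyc (swap12 x)) + g (cyc (cyc (swap12 x))) = _
    rw [show cyc (swap12 x) = swap12 (cyc (cyc x)) from rfl,
      show cyc (swap12 (cyc (cyc x))) = swap12 (cyc x) from rfl, e1, e2, e3]
    simp only [hf]; ring
  have hrep : ∀ x : Orb3 Q, x.1.1 = x.1.2 ∨ x.1.2 = x.2 ∨ x.2 = x.1.1 → f x = 0 := by
    intro x hx
    have main : ∀ y : Orb3 Q, y.1.1 = y.1.2 → f y = 0 := fun y hy => by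
      have e : swap12 y = y := Prod.ext (Prod.ext hy.symm hy) rfl
      have h1 := hs y
      rw [e] at h1
      linarith
    rcases hx with h | h | h
    · exact main x h
    · rw [← hc]; exact main _ h
    · rw [← hc, ← hc]; exact main _ h
  have hgsupp : ∀ x : Orb3 Q, (x.1.1 : ℕ) + x.1.2 + x.2 ≠ k + 1 → g x = 0 := by
    intro x hx
    obtain ⟨z, hz⟩ := (isRep_spin3 Q).diag
    have hzx : z x = ((x.1.1 : ℕ) : ℝ) + (x.1.2 : ℕ) + (x.2 : ℕ) - 3 * (Q : ℝ) / 2 := by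
      have h1 := congrFun (congrFun hz x) x
      rw [spin3_Z_apply, Matrix.diagonal_apply_eq] at h1
      rw [← h1, if_pos ⟨rfl, rfl⟩, if_pos ⟨rfl, rfl⟩, if_pos ⟨rfl, rfl⟩]
      simp only [spin, Matrix.diagonal_apply_eq]
      ring
    have h2 := congrFun hgw.2 x
    rw [hz, Matrix.mulVec_diagonal, Pi.smul_apply, smul_eq_mul] at h2
    by_contra hne
    have h3 := mul_right_cancel₀ hne h2
    rw [hzx, relWt] at h3
    apply hx
    have h4 : ((x.1.1 : ℕ) : ℝ) + (x.1.2 : ℕ) + (x.2 : ℕ) = (k : ℝ) + 1 := by linarith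
    exact_mod_cast h4
  have hsupp : ∀ x : Orb3 Q, (x.1.1 : ℕ) + x.1.2 + x.2 ≠ k + 1 → f x = 0 := by
    intro x hx
    simp only [hf]
    rw [hgsupp x hx, hgsupp (cyc x) (by simp [cyc]; omega),
      hgsupp (cyc (cyc x)) (by simp [cyc]; omega), add_zero, add_zero]
  refine alt_vanish hk f hc hs hrep hsupp ?_ x
  have hshift : ∀ h : Orb3 Q → ℝ, (spin3 Q).E *ᵥ h = 0 →
      (spin3 Q).E *ᵥ (fun y => h (cyc y)) = 0 := fun h hh => by
    funext z
    have h1 := congrFun hh (cyc z)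
    simp only [Matrix.mulVec, dotProduct, Pi.zero_apply] at h1 ⊢
    rw [← Equiv.sum_comp (cyc (α := Orb Q))] at h1
    rw [← h1]
    exact Finset.sum_congr rfl fun y _ => by rw [(spin3_perm Q z y).1.1]
  have hf' : f = g + (fun y => g (cyc y)) + fun y => g (cyc (cyc y)) := rfl
  have e1 := hshift g hgw.1
  have e2 := hshift _ e1
  rw [hf', Matrix.mulVec_add, Matrix.mulVec_add, hgw.1, e1, e2]
  simp

/-- Relative momenta `0, 1, 3`, with all their lowered vectors, have `kerK = -1`. -/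
theorem kerK_lower_eq_neg {Q k : ℕ} (hk : k = 0 ∨ k = 1 ∨ k = 3) {u : Pair Q × Orb Q → ℝ}
    (hu : (pairOrbSpin Q).IsHW (relWt Q k) u) (j : ℕ) :
    kerK Q *ᵥ (pairOrbSpin Q).lower u j = -(pairOrbSpin Q).lower u j := by
  induction j with
  | zero => exact kerK_neg_of_killed fun x => killed_of_isHW hk hu x
  | succ j ih =>
    rw [Spin.lower_succ, Matrix.mulVec_mulVec, (invariant_kerK Q).2.1, ← Matrix.mulVec_mulVec, ih,
      Matrix.mulVec_neg]

/-- The form used in `IsAdmissible`. -/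
theorem sum_kerK_lower {Q k : ℕ} (hk : k = 0 ∨ k = 1 ∨ k = 3) {u : Pair Q × Orb Q → ℝ}
    (hu : (pairOrbSpin Q).IsHW (relWt Q k) u) (j : ℕ) (p : Pair Q × Orb Q) :
    ∑ q, kerK Q p q * (pairOrbSpin Q).lower u j q = -(pairOrbSpin Q).lower u j p :=
  congrFun (kerK_lower_eq_neg hk hu j) p

end Vale.Agent.P359
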