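import Mathlib.Analysis.SpecificLimits.Basic
import Vale.Agent.P359.Spin.Exchange

/-!
# P359: the spectrum of the exchange kernel at finite `Q`

For relative momentum `k` the highest weight space of a pair and an orbital is spanned by one
vector, so `kerK` is a scalar there. Reading the component (pair weight `0`, orbital `k`) leaves
two terms and gives `-gK Q k`. The size of `gK Q k` is at most `(3k-1)/2^k` for all `3 ≤ k`, with
equality in the limit `Q → ∞`.
-/

namespace Vale.Agent.P359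

open Finset Matrix Filter
open scoped Kronecker Topology

/-- The absolute value of the eigenvalue of `kerK` in relative momentum `k ≥ 1`. -/
noncomputable def aK (Q k : ℕ) : ℝ :=
  (Q.choose k : ℝ) * (((k : ℝ) - 1) / ((2 * Q - 2).choose k : ℝ) +
    (k : ℝ) ^ 2 / ((Q : ℝ) * ((2 * Q - 2).choose (k - 1) : ℝ)))

/-- The eigenvalue of `-kerK` in relative momentum `k`. -/
noncomputable def gK (Q k : ℕ) : ℝ := (-1) ^ (k + 1) * aK Q k

theorem natCast_two_mul_sub {Q : ℕ} (hQ : 1 ≤ Q) : ((2 * Q - 2 : ℕ) : ℝ) = 2 * (Q : ℝ) - 2 := by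
  push_cast [Nat.cast_sub (show 2 ≤ 2 * Q by omega)]; ring

/-- The squared norm of a pair vector in closed form. -/
theorem pairNrm_eq {Q : ℕ} (M : Pair Q) :
    pairNrm Q M = 2 * (Q : ℝ) * ((2 * Q - 2).choose (M : ℕ) : ℝ) := by
  obtain ⟨m, hm⟩ := M
  induction m with
  | zero =>
    have hQ : 1 ≤ Q := by omega
    obtain ⟨n, rfl⟩ : ∃ n, Q = n + 1 := ⟨Q - 1, by omega⟩
    simp only [pairNrm, pairRaw_eq, rawF, Nat.choose_zero_right, Nat.cast_one, mul_one]
    rw [Fin.sum_univ_succ, Fin.sum_univ_succ (fun a : Fin (n + 1) => _)]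
    simp [Fin.sum_univ_succ, mul_pow]
    ring_nf
    rw [Finset.sum_eq_zero fun x _ => Finset.sum_eq_zero fun y _ => if_neg (by omega),
      Real.sq_sqrt (by positivity)]
    ring
  | succ m ih =>
    have hQ : 1 ≤ Q := by omega
    have h := pairNrm_succ Q ⟨m, by omega⟩ ⟨m + 1, hm⟩ rfl
    rw [ih (by omega)] at h
    have hm2 : m + 1 ≤ 2 * Q - 2 := by omega
    have hc := congrArg (Nat.cast (R := ℝ)) (Nat.choose_succ_right_eq (2 * Q - 2) m)
    push_cast [Nat.cast_sub (show m ≤ 2 * Q - 2 by omega), natCast_two_mul_sub hQ] at hc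
    simp only at h ⊢
    have h1 : (0 : ℝ) < (m : ℝ) + 1 := by positivity
    refine mul_left_cancel₀ h1.ne' ?_
    linear_combination -h - 2 * (Q : ℝ) * hc

variable {Q k : ℕ} {u : Pair Q × Orb Q → ℝ}

theorem pairOrbSpin_Z (x : Pair Q × Orb Q) :
    ((pairOrbSpin Q).Z *ᵥ u) x =
      (((x.1 : ℕ) : ℝ) + (x.2 : ℕ) - ((Q : ℝ) - 1) - (Q : ℝ) / 2) * u x := by
  show (((pairSpin Q).Z ⊗ₖ (1 : Matrix (Orb Q) (Orb Q) ℝ) +
    (1 : Matrix (Pair Q) (Pair Q) ℝ) ⊗ₖ (spin Q).Z) *ᵥ u) x = _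
  simp only [pairSpin, spin]
  rw [← Matrix.diagonal_one, ← Matrix.diagonal_one, diagonal_kronecker_diagonal,
    diagonal_kronecker_diagonal, diagonal_add, Matrix.mulVec_diagonal]
  ring

/-- A vector of weight `relWt Q k` lives on total index `k`. -/
theorem relWt_supp (hu : (pairOrbSpin Q).IsHW (relWt Q k) u) (x : Pair Q × Orb Q)
    (hx : (x.1 : ℕ) + x.2 ≠ k) : u x = 0 := by
  have h := congrFun hu.2 x
  rw [pairOrbSpin_Z, Pi.smul_apply, smul_eq_mul] at h
  by_contra hne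
  have h1 := mul_right_cancel₀ hne h
  apply hx
  have h2 : ((x.1 : ℕ) : ℝ) + (x.2 : ℕ) = (k : ℝ) := by rw [relWt] at h1; linarith
  exact_mod_cast h2

/-- A vector on `Pair Q × Orb Q` as a function on natural numbers. -/
def natExt (u : Pair Q × Orb Q → ℝ) (M p : ℕ) : ℝ :=
  if h : M < 2 * Q - 1 ∧ p < Q + 1 then u (⟨M, h.1⟩, ⟨p, h.2⟩) else 0

theorem natExt_apply (u : Pair Q × Orb Q → ℝ) (M : Pair Q) (p : Orb Q) :
    natExt u M p = u (M, p) := by
  rw [natExt, dif_pos ⟨M.2, p.2⟩]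

/-- The recursion from `E u = 0`. -/
theorem hw_rec (hu : (pairOrbSpin Q).IsHW (relWt Q k) u) {M p : ℕ} (hM : M + 1 < 2 * Q - 1)
    (hp : p < Q + 1) :
    lad (2 * (Q : ℝ) - 2) M * natExt u (M + 1) p + lad Q p * natExt u M (p + 1) = 0 := by
  have h := congrFun hu.1 (⟨M, by omega⟩, ⟨p, hp⟩)
  simp only [pairOrbSpin, Spin.prod, Matrix.mulVec, dotProduct, Matrix.add_apply, Matrix.kronecker,
    Matrix.kroneckerMap_apply, Matrix.one_apply, add_mul, Finset.sum_add_distrib,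
    Fintype.sum_prod_type, Pi.zero_apply] at h
  rw [← h]
  congr 1
  · rw [Finset.sum_eq_single ⟨M + 1, hM⟩ (fun x _ hx => Finset.sum_eq_zero fun y _ => by
      rw [pairSpin_E_apply, if_neg fun e => hx (Fin.ext e)]; simp) (by simp),
      Finset.sum_eq_single ⟨p, hp⟩ (fun y _ hy => by simp [Ne.symm hy]) (by simp),
      pairSpin_E_apply]
    simp [natExt, hM, hp]
  · rw [Finset.sum_eq_single ⟨M, by omega⟩ (fun x _ hx => Finset.sum_eq_zero fun y _ => by
      simp [Ne.symm hx]) (by simp)]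
    simp only [if_pos, one_mul, spin_eq, ladder_E_apply, ← natExt_apply u]
    exact (sum_lad_succ ⟨p, hp⟩ fun y => natExt u M y).symm

/-- All components of a highest weight vector from the component `(0, k)`. -/
theorem hw_closed (hQ : 1 ≤ Q) (hu : (pairOrbSpin Q).IsHW (relWt Q k) u) :
    ∀ M p : ℕ, M < 2 * Q - 1 → p < Q + 1 → M + p = k →
      Real.sqrt ((2 * Q - 2).choose M : ℝ) * Real.sqrt (Q.choose p : ℝ) * natExt u M p =
        (-1) ^ M * (k.choose M : ℝ) * (Real.sqrt (Q.choose k : ℝ) * natExt u 0 k) := by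
  intro M
  induction M with
  | zero =>
    intro p _ _ h
    obtain rfl : p = k := by omega
    simp
  | succ M ih =>
    intro p hM hp h
    have hr := hw_rec hu hM hp
    have hl1 := lad_mul_sqrt_choose (Q := 2 * Q - 2) (a := M) (by omega)
    rw [natCast_two_mul_sub hQ] at hl1
    have hc := congrArg (Nat.cast (R := ℝ)) (Nat.choose_succ_right_eq k M)
    rw [show k - M = p + 1 by omega] at hc
    push_cast at hc
    have h1 : (0 : ℝ) < (M : ℝ) + 1 := by positivity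
    refine mul_left_cancel₀ h1.ne' ?_
    by_cases hp2 : p + 1 < Q + 1
    · have hl2 := lad_mul_sqrt_choose (Q := Q) (a := p) (by omega)
      have h2 := ih (p + 1) (by omega) hp2 (by omega)
      generalize Real.sqrt (Q.choose k : ℝ) * natExt u 0 k = c at h2 ⊢
      rw [pow_succ]
      linear_combination -(Real.sqrt (Q.choose p : ℝ) * natExt u (M + 1) p) * hl1 +
        Real.sqrt ((2 * Q - 2).choose M : ℝ) * Real.sqrt (Q.choose p : ℝ) * hr -
        Real.sqrt ((2 * Q - 2).choose M : ℝ) * natExt u M (p + 1) * hl2 - ((p : ℝ) + 1) * h2 +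
        (-1) ^ M * c * hc
    · have hk : Q.choose k = 0 := Nat.choose_eq_zero_of_lt (by omega)
      have h0 : natExt u M (p + 1) = 0 := by rw [natExt, dif_neg]; omega
      rw [h0, mul_zero, add_zero] at hr
      rw [hk, Nat.cast_zero, Real.sqrt_zero]
      linear_combination -(Real.sqrt (Q.choose p : ℝ) * natExt u (M + 1) p) * hl1 +
        Real.sqrt ((2 * Q - 2).choose M : ℝ) * Real.sqrt (Q.choose p : ℝ) * hr

/-- A highest weight vector is determined by its component `(0, k)`. -/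
theorem hw_eq_zero (hQ : 1 ≤ Q) (hu : (pairOrbSpin Q).IsHW (relWt Q k) u)
    (h0 : natExt u 0 k = 0) : u = 0 := by
  funext x
  by_cases hx : (x.1 : ℕ) + x.2 = k
  · have h := hw_closed hQ hu _ _ x.1.2 x.2.2 hx
    rw [h0, mul_zero, mul_zero, natExt_apply] at h
    have e1 : (0 : ℝ) < Real.sqrt ((2 * Q - 2).choose (x.1 : ℕ) : ℝ) :=
      Real.sqrt_pos.2 (by exact_mod_cast Nat.choose_pos (by have := x.1.2; omega))
    have e2 : (0 : ℝ) < Real.sqrt (Q.choose (x.2 : ℕ) : ℝ) :=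
      Real.sqrt_pos.2 (by exact_mod_cast Nat.choose_pos (by have := x.2.2; omega))
    exact (mul_eq_zero.1 h).resolve_left (mul_pos e1 e2).ne'
  · exact relWt_supp hu x hx

theorem sum_pair_eq {Q : ℕ} (j : ℕ) (f : Pair Q → ℝ) (g : ℝ)
    (hg : ∀ h : j < 2 * Q - 1, f ⟨j, h⟩ = g) (hg' : ¬j < 2 * Q - 1 → g = 0)
    (hf : ∀ M : Pair Q, (M : ℕ) ≠ j → f M = 0) : ∑ M, f M = g := by
  by_cases h : j < 2 * Q - 1
  · rw [Finset.sum_eq_single ⟨j, h⟩ (fun x _ hx => hf x fun e => hx (Fin.ext e)) (by simp)]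
    exact hg h
  · rw [hg' h]
    exact Finset.sum_eq_zero fun x _ => hf x fun e => h (e ▸ x.2)

theorem pairVec_eq_rawF (Q : ℕ) (M : Pair Q) (a b : Orb Q) :
    pairVec Q M a b =
      rawF Q ((M : ℕ) + 1) a b / Real.sqrt (2 * (Q : ℝ) * ((2 * Q - 2).choose (M : ℕ) : ℝ)) := by
  rw [← pairNrm_eq]; rfl

/-- The component `(0, k)` of `kerK u`. -/
theorem kerK_comp (hQ : 2 ≤ Q) (hu : (pairOrbSpin Q).IsHW (relWt Q k) u) (hk : k < Q + 1)
    (hz : (0 : ℕ) < 2 * Q - 1) :
    (kerK Q *ᵥ u) (⟨0, hz⟩, ⟨k, hk⟩) = -gK Q k * natExt u 0 k := by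
  set D := 2 * Q - 2 with hD
  have hkD : k ≤ D := by omega
  let o₀ : Orb Q := ⟨0, by omega⟩
  let o₁ : Orb Q := ⟨1, by omega⟩
  let z : Pair Q := ⟨0, hz⟩
  let kk : Orb Q := ⟨k, hk⟩
  have key : (kerK Q *ᵥ u) (z, kk) = -2 * (pairVec Q z o₁ o₀ *
      (∑ M, pairVec Q M o₁ kk * u (M, o₀)) +
      pairVec Q z o₀ o₁ * (∑ M, pairVec Q M o₀ kk * u (M, o₁))) := by
    have e0 : ∀ a b : Orb Q, pairVec Q z a b =
        (if a = o₁ ∧ b = o₀ then pairVec Q z o₁ o₀ else 0) +
        (if a = o₀ ∧ b = o₁ then pairVec Q z o₀ o₁ else 0) := by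
      intro a b
      by_cases h1 : a = o₁ ∧ b = o₀
      · obtain ⟨rfl, rfl⟩ := h1
        simp [o₀, o₁, Fin.ext_iff]
      · by_cases h2 : a = o₀ ∧ b = o₁
        · obtain ⟨rfl, rfl⟩ := h2
          simp [o₀, o₁, Fin.ext_iff]
        · rw [if_neg h1, if_neg h2, add_zero, pairVec_eq_rawF, rawF]
          simp only [Fin.ext_iff, o₀, o₁] at h1 h2
          rw [if_neg (by simp [z]; omega), zero_div]
    simp only [Matrix.mulVec, dotProduct, kerK, Fintype.sum_prod_type]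
    rw [Finset.sum_comm]
    have e1 : ∀ (b : Orb Q) (M : Pair Q),
        (-2 * ∑ a, pairVec Q z a b * pairVec Q M a kk) * u (M, b) =
        (if b = o₀ then -2 * pairVec Q z o₁ o₀ * (pairVec Q M o₁ kk * u (M, o₀)) else 0) +
        (if b = o₁ then -2 * pairVec Q z o₀ o₁ * (pairVec Q M o₀ kk * u (M, o₁)) else 0) := by
      intro b M
      simp only [e0 _ b, add_mul, ite_mul, zero_mul, Finset.sum_add_distrib, ite_and,
        Finset.sum_ite_eq', Finset.mem_univ, if_true, mul_add]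
      split_ifs with h1 h2 h3
      all_goals first
        | ring1
        | exact absurd (h1.symm.trans h2) (by simp [o₀, o₁, Fin.ext_iff])
        | (rw [h1]; ring1)
        | (rw [h3]; ring1)
    show ∑ b, ∑ M, (-2 * ∑ a, pairVec Q z a b * pairVec Q M a kk) * u (M, b) = _
    simp only [e1, Finset.sum_add_distrib]
    rw [Finset.sum_comm, Finset.sum_comm (γ := Orb Q)]
    simp only [Finset.sum_ite_eq', Finset.mem_univ, if_true, mul_add, Finset.mul_sum, mul_assoc]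
  set c := Real.sqrt (Q.choose k : ℝ) * natExt u 0 k with hc
  have hCD : ∀ j, j ≤ D → (0 : ℝ) < (D.choose j : ℝ) := fun j hj => by
    exact_mod_cast Nat.choose_pos hj
  have hsq : ∀ x : ℝ, 0 ≤ x → Real.sqrt (2 * (Q : ℝ) * x) =
      Real.sqrt (2 * (Q : ℝ)) * Real.sqrt x := fun x _ => Real.sqrt_mul (by positivity) x
  have t1 : ∑ M, pairVec Q M o₁ kk * u (M, o₀) =
      (1 - (k : ℝ)) * Real.sqrt (Q : ℝ) * Real.sqrt (Q.choose k : ℝ) * ((-1) ^ k * c) /
        (Real.sqrt (2 * (Q : ℝ)) * (D.choose k : ℝ)) := by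
    refine sum_pair_eq k _ _ (fun h => ?_) (fun h => absurd (by omega) h) fun M hM => ?_
    · have h2 := hw_closed (by omega) hu k 0 h (by omega) (by omega)
      rw [← hc, Nat.choose_zero_right, Nat.choose_self, Nat.cast_one, Real.sqrt_one, mul_one,
        mul_one, ← hD] at h2
      rw [pairVec_eq_rawF, rawF, if_pos (by simp [o₁, kk]; omega), ← natExt_apply u,
        hsq _ (Nat.cast_nonneg _), ← h2, ← hD]
      simp only [o₁, o₀, kk, Nat.choose_one_right, Nat.cast_one]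
      rw [Real.sqrt_mul (Nat.cast_nonneg _)]
      have hd := hCD k hkD
      nth_rewrite 3 [← Real.mul_self_sqrt hd.le]
      field_simp
    · rw [pairVec_eq_rawF, rawF, if_neg (by simp [o₁, kk]; omega), zero_div, zero_mul]
  have t2 : ∑ M, pairVec Q M o₀ kk * u (M, o₁) =
      -(k : ℝ) ^ 2 * Real.sqrt (Q.choose k : ℝ) * ((-1) ^ (k + 1) * c) /
        (Real.sqrt (2 * (Q : ℝ)) * Real.sqrt (Q : ℝ) * (D.choose (k - 1) : ℝ)) := by
    rcases Nat.eq_zero_or_pos k with hk0 | hk0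
    · subst hk0
      rw [Finset.sum_eq_zero fun M _ => by
        rw [pairVec_eq_rawF, rawF, if_neg (by simp [o₀, kk]), zero_div, zero_mul]]
      simp
    obtain ⟨j, rfl⟩ : ∃ j, k = j + 1 := ⟨k - 1, by omega⟩
    refine sum_pair_eq j _ _ (fun h => ?_) (fun h => absurd (by omega) h) fun M hM => ?_
    · have h2 := hw_closed (by omega) hu j 1 h (by omega) (by omega)
      rw [← hc, Nat.choose_one_right, Nat.choose_succ_self_right, ← hD] at h2
      push_cast at h2
      rw [pairVec_eq_rawF, rawF, if_pos (by simp [o₀, kk]), ← natExt_apply u,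
        hsq _ (Nat.cast_nonneg _), ← hD, Nat.add_sub_cancel,
        show ((-1 : ℝ)) ^ (j + 1 + 1) = (-1) ^ j by rw [pow_succ, pow_succ]; ring]
      simp only [o₁, o₀, kk, Nat.choose_zero_right, Nat.cast_one, one_mul, Nat.cast_zero,
        zero_sub]
      push_cast
      have hd := hCD j (by omega)
      have hq : (0 : ℝ) < Real.sqrt (Q : ℝ) := Real.sqrt_pos.2 (by positivity)
      nth_rewrite 2 [← Real.mul_self_sqrt hd.le]
      have hs := Real.sqrt_pos.2 hd
      field_simp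
      linear_combination -Real.sqrt (Q.choose (j + 1) : ℝ) * h2
    · rw [pairVec_eq_rawF, rawF, if_neg (by simp [o₀, kk]; omega), zero_div, zero_mul]
  rw [key, t1, t2, pairVec_eq_rawF, pairVec_eq_rawF, hc, gK, aK, ← hD]
  simp only [rawF, o₀, o₁, z, Nat.choose_zero_right, Nat.choose_one_right, Nat.cast_one, mul_one,
    Nat.cast_zero, sub_zero, zero_sub, one_mul, if_pos, zero_add, add_zero]
  have hq : (0 : ℝ) < Real.sqrt (Q : ℝ) := Real.sqrt_pos.2 (by positivity)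
  have h2q : (0 : ℝ) < Real.sqrt (2 * (Q : ℝ)) := Real.sqrt_pos.2 (by positivity)
  have e2 := Real.mul_self_sqrt (show (0 : ℝ) ≤ 2 * Q by positivity)
  have e1 := Real.mul_self_sqrt (show (0 : ℝ) ≤ (Q : ℝ) by positivity)
  have e3 := Real.mul_self_sqrt (show (0 : ℝ) ≤ (Q.choose k : ℝ) by positivity)
  have hd := hCD k hkD
  have hd' := hCD (k - 1) (by omega)
  field_simp
  ring_nf
  rw [Real.sq_sqrt (show (0 : ℝ) ≤ (Q : ℝ) by positivity),
    Real.sq_sqrt (show (0 : ℝ) ≤ (Q.choose k : ℝ) by positivity),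
    Real.sq_sqrt (show (0 : ℝ) ≤ (Q : ℝ) * 2 by positivity)]
  ring

/-- On relative momentum `k` the exchange kernel is `-gK Q k`. -/
theorem kerK_mulVec_hw (hQ : 2 ≤ Q) (hu : (pairOrbSpin Q).IsHW (relWt Q k) u) :
    kerK Q *ᵥ u = -gK Q k • u := by
  have hKu := hu.mulVec (invariant_kerK Q)
  set w := kerK Q *ᵥ u - (-gK Q k) • u with hw
  have hwh : (pairOrbSpin Q).IsHW (relWt Q k) w := by
    constructor
    · rw [hw, Matrix.mulVec_sub, Matrix.mulVec_smul, hKu.1, hu.1, smul_zero, sub_zero]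
    · rw [hw, Matrix.mulVec_sub, Matrix.mulVec_smul, hKu.2, hu.2, smul_comm, smul_sub]
  have h0 : natExt w 0 k = 0 := by
    by_cases hk : k < Q + 1
    · have hz : 0 < 2 * Q - 1 := by omega
      rw [natExt, dif_pos ⟨hz, hk⟩, hw, Pi.sub_apply, Pi.smul_apply, smul_eq_mul,
        kerK_comp hQ hu hk hz, natExt, dif_pos ⟨hz, hk⟩, sub_self]
    · rw [natExt, dif_neg]; omega
  exact sub_eq_zero.1 (hw_eq_zero (by omega) hwh h0)

/-! ## Sign, bound and limit -/

/-- The ratio of binomials in `aK`. -/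
noncomputable def chRatio (Q k : ℕ) : ℝ := (Q.choose k : ℝ) / ((2 * Q - 2).choose k : ℝ)

theorem chRatio_nonneg (Q k : ℕ) : 0 ≤ chRatio Q k := by unfold chRatio; positivity

theorem chRatio_zero (Q : ℕ) : chRatio Q 0 = 1 := by simp [chRatio]

theorem chRatio_succ (hQ : 2 ≤ Q) (hk : k < Q) :
    chRatio Q (k + 1) * (2 * (Q : ℝ) - 2 - k) = chRatio Q k * ((Q : ℝ) - k) := by
  have h1 := congrArg (Nat.cast (R := ℝ)) (Nat.choose_succ_right_eq Q k)
  have h2 := congrArg (Nat.cast (R := ℝ)) (Nat.choose_succ_right_eq (2 * Q - 2) k)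
  push_cast [Nat.cast_sub hk.le, Nat.cast_sub (show k ≤ 2 * Q - 2 by omega),
    natCast_two_mul_sub (show 1 ≤ Q by omega)] at h1 h2
  have p1 : (0 : ℝ) < ((2 * Q - 2).choose (k + 1) : ℝ) := by
    exact_mod_cast Nat.choose_pos (by omega)
  have p2 : (0 : ℝ) < ((2 * Q - 2).choose k : ℝ) := by exact_mod_cast Nat.choose_pos (by omega)
  have hk1 : (0 : ℝ) < (k : ℝ) + 1 := by positivity
  unfold chRatio
  field_simp
  refine mul_left_cancel₀ hk1.ne' ?_
  linear_combination ((2 * (Q : ℝ) - 2 - k) * ((2 * Q - 2).choose k : ℝ)) * h1 -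
    (Q.choose k : ℝ) * ((Q : ℝ) - k) * h2

/-- `aK` through the ratio of binomials. -/
theorem aK_eq (hQ : 2 ≤ Q) (hk1 : 1 ≤ k) :
    aK Q k * Q = chRatio Q k * ((3 * (k : ℝ) - 1) * Q - k * ((k : ℝ) + 1)) := by
  rcases le_or_gt k Q with hk | hk
  swap
  · simp [aK, chRatio, Nat.choose_eq_zero_of_lt hk]
  obtain ⟨j, rfl⟩ : ∃ j, k = j + 1 := ⟨k - 1, by omega⟩
  have h2 := congrArg (Nat.cast (R := ℝ)) (Nat.choose_succ_right_eq (2 * Q - 2) j)
  push_cast [Nat.cast_sub (show j ≤ 2 * Q - 2 by omega),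
    natCast_two_mul_sub (show 1 ≤ Q by omega)] at h2
  have p1 : (0 : ℝ) < ((2 * Q - 2).choose (j + 1) : ℝ) := by
    exact_mod_cast Nat.choose_pos (by omega)
  have p2 : (0 : ℝ) < ((2 * Q - 2).choose j : ℝ) := by exact_mod_cast Nat.choose_pos (by omega)
  have hQ0 : (0 : ℝ) < Q := by positivity
  rw [aK, chRatio, Nat.add_sub_cancel]
  push_cast
  field_simp
  linear_combination (Q.choose (j + 1) : ℝ) * ((j : ℝ) + 1) * h2

theorem aK_nonneg (hk : 1 ≤ k) : 0 ≤ aK Q k := by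
  have : (0 : ℝ) ≤ (k : ℝ) - 1 := by simpa using (Nat.one_le_cast (α := ℝ)).2 hk
  unfold aK; positivity

theorem abs_gK (hk : 1 ≤ k) : |gK Q k| = aK Q k := by
  rw [gK, abs_mul, abs_pow, abs_neg, abs_one, one_pow, one_mul, abs_of_nonneg (aK_nonneg hk)]

/-- Even relative momenta have negative `gK`. -/
theorem gK_nonpos_of_even (hk : Even k) (hk1 : 1 ≤ k) : gK Q k ≤ 0 := by
  rw [gK, pow_succ, hk.neg_one_pow]
  linarith [aK_nonneg (Q := Q) hk1]

/-- The bound `(3k-1)/2^k`, uniform in `Q`, with equality at `k = 3`. -/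
theorem aK_le (hQ : 3 ≤ Q) (hk : 3 ≤ k) : aK Q k ≤ (3 * (k : ℝ) - 1) / 2 ^ k := by
  have hQ0 : (0 : ℝ) < Q := by positivity
  rcases lt_or_ge Q k with hkQ | hkQ
  · have : (1 : ℝ) ≤ k := by exact_mod_cast (show 1 ≤ k by omega)
    rw [show aK Q k = 0 by simp [aK, Nat.choose_eq_zero_of_lt hkQ]]
    exact div_nonneg (by linarith) (by positivity)
  suffices main : ∀ j, j + 3 ≤ Q → chRatio Q (j + 3) *
      ((3 * ((j : ℝ) + 3) - 1) * Q - ((j : ℝ) + 3) * ((j : ℝ) + 4)) * 2 ^ (j + 3) ≤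
      (3 * ((j : ℝ) + 3) - 1) * Q by
    obtain ⟨j, rfl⟩ : ∃ j, k = j + 3 := ⟨k - 3, by omega⟩
    have h := main j hkQ
    have e := aK_eq (Q := Q) (k := j + 3) (by omega) (by omega)
    push_cast at e ⊢
    rw [le_div_iff₀ (by positivity)]
    refine le_of_mul_le_mul_right ?_ hQ0
    rw [mul_right_comm, e]
    exact le_trans (le_of_eq (by ring)) h
  intro j
  induction j with
  | zero =>
    intro _
    have h1 := chRatio_succ (Q := Q) (k := 0) (by omega) (by omega)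
    have h2 := chRatio_succ (Q := Q) (k := 1) (by omega) (by omega)
    have h3 := chRatio_succ (Q := Q) (k := 2) (by omega) (by omega)
    rw [chRatio_zero] at h1
    norm_num at h1 h2 h3 ⊢
    have hq : (3 : ℝ) ≤ Q := by exact_mod_cast hQ
    have hpos : (0 : ℝ) < (2 * (Q : ℝ) - 2) * (2 * (Q : ℝ) - 2 - 1) * (2 * (Q : ℝ) - 2 - 2) :=
      mul_pos (mul_pos (by linarith) (by linarith)) (by linarith)
    refine le_of_eq (mul_left_cancel₀ hpos.ne' ?_)
    linear_combination 8 * (8 * (Q : ℝ) - 12) * (2 * (Q : ℝ) - 2) * (2 * (Q : ℝ) - 2 - 1) * h3 +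
      8 * (8 * (Q : ℝ) - 12) * ((Q : ℝ) - 2) * (2 * (Q : ℝ) - 2) * h2 +
      8 * (8 * (Q : ℝ) - 12) * ((Q : ℝ) - 2) * ((Q : ℝ) - 1) * h1
  | succ j ih =>
    intro hj
    have ih' := ih (by omega)
    have hr := chRatio_succ (Q := Q) (k := j + 3) (by omega) (by omega)
    have h0 := chRatio_nonneg Q (j + 3)
    have h4 : (j : ℝ) + 4 ≤ Q := by exact_mod_cast (by omega : j + 4 ≤ Q)
    have hj0 : (0 : ℝ) ≤ j := Nat.cast_nonneg _
    push_cast at hr ih' ⊢
    rw [show j + 1 + 3 = j + 3 + 1 by omega, pow_succ]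
    set x := (j : ℝ) + 3 with hx
    rw [show (j : ℝ) + 1 + 3 = x + 1 by simp [hx]; ring,
      show (j : ℝ) + 1 + 4 = x + 2 by simp [hx]; ring] at *
    rw [show (j : ℝ) + 4 = x + 1 by simp [hx]; ring] at ih'
    set r := chRatio Q (j + 3)
    set r' := chRatio Q (j + 3 + 1)
    set L := (3 * x - 1) * (Q : ℝ) - x * (x + 1) with hL
    set L' := (3 * (x + 1) - 1) * (Q : ℝ) - (x + 1) * (x + 2) with hL'
    have hx3 : 3 ≤ x := by linarith
    have hd : 0 < 2 * (Q : ℝ) - 2 - x := by linarith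
    have hL'0 : 0 ≤ L' := by nlinarith
    have hr2 : 2 * r' ≤ r := by
      refine le_of_mul_le_mul_right ?_ hd
      nlinarith [mul_nonneg h0 (show 0 ≤ x - 2 by linarith)]
    have hLL : L' * (3 * x - 1) ≤ L * (3 * (x + 1) - 1) := by nlinarith
    have hp : (0 : ℝ) < 2 ^ (j + 3) := by positivity
    refine le_of_mul_le_mul_right ?_ (show (0 : ℝ) < 3 * x - 1 by linarith)
    calc r' * L' * (2 ^ (j + 3) * 2) * (3 * x - 1)
        = (2 * r') * (2 ^ (j + 3) * (L' * (3 * x - 1))) := by ring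
      _ ≤ r * (2 ^ (j + 3) * (L' * (3 * x - 1))) :=
        mul_le_mul_of_nonneg_right hr2
          (mul_nonneg hp.le (mul_nonneg hL'0 (by linarith)))
      _ ≤ r * (2 ^ (j + 3) * (L * (3 * (x + 1) - 1))) :=
        mul_le_mul_of_nonneg_left (mul_le_mul_of_nonneg_left hLL hp.le) h0
      _ = r * L * 2 ^ (j + 3) * (3 * (x + 1) - 1) := by ring
      _ ≤ (3 * x - 1) * Q * (3 * (x + 1) - 1) := mul_le_mul_of_nonneg_right ih' (by linarith)
      _ = _ := by ring

theorem abs_gK_le (hQ : 3 ≤ Q) (hk : 3 ≤ k) : |gK Q k| ≤ (3 * (k : ℝ) - 1) / 2 ^ k := by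
  rw [abs_gK (by omega)]; exact aK_le hQ hk

theorem tendsto_chRatio (k : ℕ) :
    Tendsto (fun Q => chRatio Q k) atTop (𝓝 ((1 / 2 : ℝ) ^ k)) := by
  induction k with
  | zero => simp [chRatio_zero]
  | succ k ih =>
    have h1 : Tendsto (fun Q : ℕ => (1 - (k : ℝ) / Q) / (2 - (2 + (k : ℝ)) / Q)) atTop
        (𝓝 ((1 - 0) / (2 - 0))) :=
      (tendsto_const_nhds.sub (tendsto_const_div_atTop_nhds_zero_nat _)).div
        (tendsto_const_nhds.sub (tendsto_const_div_atTop_nhds_zero_nat _)) (by norm_num)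
    have h2 := ih.mul h1
    rw [show ((1 : ℝ) - 0) / (2 - 0) = 1 / 2 by norm_num, ← pow_succ] at h2
    refine h2.congr' ?_
    filter_upwards [eventually_ge_atTop (k + 3)] with Q hQ
    have hr := chRatio_succ (Q := Q) (k := k) (by omega) (by omega)
    have hQ' : (k : ℝ) + 3 ≤ Q := by exact_mod_cast hQ
    have hk0 : (0 : ℝ) ≤ k := Nat.cast_nonneg _
    have hQ0 : (0 : ℝ) < Q := by linarith
    have hd : (0 : ℝ) < (Q : ℝ) * 2 - (2 + k) := by linarith
    field_simp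
    linear_combination -hr

/-- The planar limit of `gK`. -/
theorem tendsto_gK (k : ℕ) :
    Tendsto (fun Q => gK Q k) atTop (𝓝 ((-1 / 2 : ℝ) ^ k * (1 - 3 * (k : ℝ)))) := by
  rcases Nat.eq_zero_or_pos k with h0 | h0
  · subst h0
    simp [gK, aK]
  have h1 : Tendsto (fun Q : ℕ => (-1 : ℝ) ^ (k + 1) *
      (chRatio Q k * ((3 * (k : ℝ) - 1) - (k * ((k : ℝ) + 1)) / Q))) atTop
      (𝓝 ((-1 : ℝ) ^ (k + 1) * ((1 / 2) ^ k * ((3 * (k : ℝ) - 1) - 0)))) :=
    tendsto_const_nhds.mul ((tendsto_chRatio k).mul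
      (tendsto_const_nhds.sub (tendsto_const_div_atTop_nhds_zero_nat _)))
  rw [show (-1 : ℝ) ^ (k + 1) * ((1 / 2) ^ k * ((3 * (k : ℝ) - 1) - 0)) =
    (-1 / 2) ^ k * (1 - 3 * (k : ℝ)) by
      rw [show (-1 / 2 : ℝ) = -1 * (1 / 2) by norm_num, mul_pow, pow_succ]; ring] at h1
  refine h1.congr' ?_
  filter_upwards [eventually_ge_atTop 2] with Q hQ
  have e := aK_eq hQ h0
  have hQ0 : (Q : ℝ) ≠ 0 := by positivity
  rw [gK]
  field_simp
  linear_combination -e

/-! ## The weight of the component `(0, k)` -/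

theorem chRatio_le (hQ : 3 ≤ Q) {M : ℕ} (hM : M ≤ Q) : chRatio Q M * 2 ^ M ≤ 2 := by
  have hq : (3 : ℝ) ≤ Q := by exact_mod_cast hQ
  have h0 := chRatio_succ (Q := Q) (k := 0) (by omega) (by omega)
  have h1 := chRatio_succ (Q := Q) (k := 1) (by omega) (by omega)
  rw [chRatio_zero] at h0
  norm_num at h0 h1
  have r1 : chRatio Q 1 ≤ 1 :=
    le_of_mul_le_mul_right (by rw [h0]; linarith) (show (0 : ℝ) < 2 * Q - 2 by linarith)
  have r2 : chRatio Q 2 ≤ 1 / 2 := by
    refine le_of_mul_le_mul_right ?_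
      (show (0 : ℝ) < (2 * (Q : ℝ) - 2 - 1) * (2 * Q - 2) by nlinarith)
    rw [← mul_assoc, h1, mul_right_comm, h0]
    nlinarith
  match M, hM with
  | 0, _ => rw [chRatio_zero]; norm_num
  | 1, _ => linarith
  | j + 2, hj =>
    induction j with
    | zero => norm_num; linarith
    | succ j ih =>
      have h := ih (by omega)
      have hr := chRatio_succ (Q := Q) (k := j + 2) (by omega) (by omega)
      have h0 := chRatio_nonneg Q (j + 2)
      have h4 : (j : ℝ) + 3 ≤ Q := by exact_mod_cast (by omega : j + 3 ≤ Q)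
      have hj0 : (0 : ℝ) ≤ j := Nat.cast_nonneg _
      push_cast at hr
      have : 2 * chRatio Q (j + 2 + 1) ≤ chRatio Q (j + 2) := by
        refine le_of_mul_le_mul_right ?_ (show (0 : ℝ) < 2 * (Q : ℝ) - 2 - (j + 2) by linarith)
        nlinarith [mul_nonneg h0 hj0]
      calc chRatio Q (j + 2 + 1) * 2 ^ (j + 2 + 1)
          = 2 * chRatio Q (j + 2 + 1) * 2 ^ (j + 2) := by ring
        _ ≤ chRatio Q (j + 2) * 2 ^ (j + 2) := mul_le_mul_of_nonneg_right this (by positivity)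
        _ ≤ 2 := h

/-- The squared component at pair weight `M`, against the one at pair weight `0`. -/
theorem hw_sq_le (hQ : 3 ≤ Q) (hk : k ≤ Q) (hu : (pairOrbSpin Q).IsHW (relWt Q k) u) {M p : ℕ}
    (h : M + p = k) :
    natExt u M p ^ 2 ≤ 2 * ((k.choose M : ℝ) * (1 / 2) ^ M) * natExt u 0 k ^ 2 := by
  have e := congrArg (· ^ 2) (hw_closed (by omega) hu M p (by omega) (by omega) h)
  simp only [mul_pow, ← pow_mul, pow_mul', neg_one_sq, one_pow, one_mul] at e
  rw [Real.sq_sqrt (Nat.cast_nonneg _), Real.sq_sqrt (Nat.cast_nonneg _),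
    Real.sq_sqrt (Nat.cast_nonneg _)] at e
  have hD : (0 : ℝ) < ((2 * Q - 2).choose M : ℝ) := by
    exact_mod_cast Nat.choose_pos (by omega)
  have hp : (0 : ℝ) < (Q.choose p : ℝ) := by exact_mod_cast Nat.choose_pos (by omega)
  have hmul : Q.choose k * k.choose M = Q.choose p * (Q - p).choose M := by
    rw [show k.choose M = k.choose p by rw [← h, Nat.choose_symm_add]]
    have := Nat.choose_mul (n := Q) (k := k) (s := p) (by omega)
    rwa [show k - p = M by omega] at this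
  have hmono : ((Q - p).choose M : ℝ) ≤ (Q.choose M : ℝ) := by
    exact_mod_cast Nat.choose_mono M (Nat.sub_le Q p)
  have hmul' : (Q.choose k : ℝ) * (k.choose M : ℝ) =
      (Q.choose p : ℝ) * ((Q - p).choose M : ℝ) := by exact_mod_cast hmul
  have hr := chRatio_le hQ (show M ≤ Q by omega)
  rw [chRatio, div_mul_eq_mul_div, div_le_iff₀ hD] at hr
  refine le_of_mul_le_mul_left ?_ (mul_pos hD hp)
  have hK : (0 : ℝ) ≤ (k.choose M : ℝ) * natExt u 0 k ^ 2 := by positivity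
  calc ((2 * Q - 2).choose M : ℝ) * (Q.choose p : ℝ) * natExt u M p ^ 2
      = (k.choose M : ℝ) * natExt u 0 k ^ 2 * ((Q.choose k : ℝ) * (k.choose M : ℝ)) := by
        rw [e]; ring
    _ = (k.choose M : ℝ) * natExt u 0 k ^ 2 * ((Q.choose p : ℝ) * ((Q - p).choose M : ℝ)) := by
        rw [hmul']
    _ ≤ (k.choose M : ℝ) * natExt u 0 k ^ 2 * ((Q.choose p : ℝ) * (Q.choose M : ℝ)) :=
        mul_le_mul_of_nonneg_left (mul_le_mul_of_nonneg_left hmono hp.le) hK
    _ = (k.choose M : ℝ) * natExt u 0 k ^ 2 * (Q.choose p : ℝ) *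
          ((Q.choose M : ℝ) * 2 ^ M * (1 / 2) ^ M) := by
        rw [mul_assoc (Q.choose M : ℝ), ← mul_pow]; norm_num; ring
    _ ≤ (k.choose M : ℝ) * natExt u 0 k ^ 2 * (Q.choose p : ℝ) *
          (2 * ((2 * Q - 2).choose M : ℝ) * (1 / 2) ^ M) :=
        mul_le_mul_of_nonneg_left (mul_le_mul_of_nonneg_right hr (by positivity))
          (mul_nonneg hK hp.le)
    _ = _ := by ring

/-- The component `(0, k)` carries at least `(2/3)^k / 2` of the squared norm. -/
theorem hw_norm_le (hQ : 3 ≤ Q) (hk : k ≤ Q) (hu : (pairOrbSpin Q).IsHW (relWt Q k) u) :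
    u ⬝ᵥ u ≤ 2 * (3 / 2 : ℝ) ^ k * natExt u 0 k ^ 2 := by
  have e : u ⬝ᵥ u = ∑ x : Pair Q × Orb Q,
      if (x.1 : ℕ) + x.2 = k then u x ^ 2 else 0 := by
    refine Finset.sum_congr rfl fun x _ => ?_
    split_ifs with h
    · ring
    · rw [relWt_supp hu x h, mul_zero]
  rw [e, Fintype.sum_prod_type]
  calc ∑ M : Pair Q, ∑ p : Orb Q, (if (M : ℕ) + p = k then u (M, p) ^ 2 else 0)
      ≤ ∑ M : Pair Q, if (M : ℕ) ≤ k then
          2 * ((k.choose (M : ℕ) : ℝ) * (1 / 2) ^ (M : ℕ)) * natExt u 0 k ^ 2 else 0 := by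
        refine Finset.sum_le_sum fun M _ => ?_
        split_ifs with hM
        · rw [Finset.sum_eq_single (⟨k - (M : ℕ), by omega⟩ : Orb Q)
            (fun p _ hp => if_neg fun h => hp (Fin.ext (show (p : ℕ) = k - M by omega))) (by simp),
            if_pos (by simp; omega), ← natExt_apply u]
          exact hw_sq_le hQ hk hu (by simp; omega)
        · rw [Finset.sum_eq_zero fun p _ => if_neg (by omega)]
    _ = ∑ M ∈ Finset.range (k + 1),
          2 * ((k.choose M : ℝ) * (1 / 2) ^ M) * natExt u 0 k ^ 2 := by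
        rw [Fin.sum_univ_eq_sum_range (fun M => if M ≤ k then
          2 * ((k.choose M : ℝ) * (1 / 2) ^ M) * natExt u 0 k ^ 2 else 0), ← Finset.sum_filter]
        refine Finset.sum_congr ?_ fun _ _ => rfl
        ext M; simp; omega
    _ = _ := by
        have h := add_pow (1 / 2 : ℝ) 1 k
        rw [show (1 / 2 : ℝ) + 1 = 3 / 2 by norm_num] at h
        rw [← Finset.sum_mul, ← Finset.mul_sum, h]
        congr 2
        exact Finset.sum_congr rfl fun M _ => by rw [one_pow, mul_one]; ring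

/-- The positive part of `gK` against the frame `|0, k⟩⟨0, k|`, weighted by pair dimension over
channel dimension: a geometric sequence of weights suffices for all `k`, uniformly in `Q`. -/
theorem gK_le_frame (hQ : 3 ≤ Q) (hk : 3 ≤ k) (hkQ : k ≤ Q)
    (hu : (pairOrbSpin Q).IsHW (relWt Q k) u) :
    gK Q k * (u ⬝ᵥ u) ≤ 3 * (3 * (k : ℝ) - 1) * (3 / 4 : ℝ) ^ k *
      ((2 * (Q : ℝ) - 1) / (3 * (Q : ℝ) - 1 - 2 * k) * natExt u 0 k ^ 2) := by
  have hn : 0 ≤ u ⬝ᵥ u := Finset.sum_nonneg fun x _ => mul_self_nonneg _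
  have hk' : (3 : ℝ) ≤ k := by exact_mod_cast hk
  have hkQ' : (k : ℝ) ≤ Q := by exact_mod_cast hkQ
  have hd : (2 : ℝ) / 3 ≤ (2 * (Q : ℝ) - 1) / (3 * (Q : ℝ) - 1 - 2 * k) := by
    rw [le_div_iff₀ (by linarith)]; linarith
  calc gK Q k * (u ⬝ᵥ u) ≤ (3 * (k : ℝ) - 1) / 2 ^ k * (u ⬝ᵥ u) :=
        mul_le_mul_of_nonneg_right ((le_abs_self _).trans (abs_gK_le hQ hk)) hn
    _ ≤ (3 * (k : ℝ) - 1) / 2 ^ k * (2 * (3 / 2 : ℝ) ^ k * natExt u 0 k ^ 2) :=
        mul_le_mul_of_nonneg_left (hw_norm_le hQ hkQ hu)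
          (div_nonneg (by linarith) (by positivity))
    _ = 3 * (3 * (k : ℝ) - 1) * (3 / 4 : ℝ) ^ k * (2 / 3 * natExt u 0 k ^ 2) := by
        rw [show (3 / 4 : ℝ) = 3 / 2 * (1 / 2) by norm_num, mul_pow, div_pow 1 2, one_pow]; ring
    _ ≤ _ := mul_le_mul_of_nonneg_left (mul_le_mul_of_nonneg_right hd (sq_nonneg _))
        (mul_nonneg (by linarith) (by positivity))

end Vale.Agent.P359
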