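import Vale.Agent.P359.Spin.Rep

/-!
# P359: spin operators on several slots

`s.pi n` is the sum over the slots of `Fin n → ι` of the spin operators of `s`.
-/

namespace Vale.Agent.P359

open Finset Matrix

namespace Spin

variable {ι : Type*} [Fintype ι] [DecidableEq ι] {n : ℕ}

/-- `A` acting in the slot `i`. -/
def slot (i : Fin n) (A : Matrix ι ι ℝ) : Matrix (Fin n → ι) (Fin n → ι) ℝ :=
  fun x y => if ∀ j, j ≠ i → x j = y j then A (x i) (y i) else 0

/-- The spin of `n` slots. -/
def pi (s : Spin ι) (n : ℕ) : Spin (Fin n → ι) where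
  E := ∑ i, slot i s.E
  Z := ∑ i, slot i s.Z

omit [Fintype ι] in
lemma slot_transpose (i : Fin n) (A : Matrix ι ι ℝ) : (slot i A)ᵀ = slot i Aᵀ := by
  ext x y
  simp only [slot, Matrix.transpose_apply]
  congr 1
  exact propext ⟨fun h j hj => (h j hj).symm, fun h j hj => (h j hj).symm⟩

lemma slot_mul_apply (i : Fin n) (A : Matrix ι ι ℝ) (B : Matrix (Fin n → ι) (Fin n → ι) ℝ)
    (x y : Fin n → ι) :
    (slot i A * B) x y = ∑ a, A (x i) a * B (Function.update x i a) y := by
  rw [Matrix.mul_apply]
  rw [← Finset.sum_subset (s₁ := Finset.univ.image fun a => Function.update x i a)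
    (Finset.subset_univ _) (fun z _ hz => ?_), Finset.sum_image ?_]
  · refine Finset.sum_congr rfl fun a _ => ?_
    simp +contextual [slot, Function.update_of_ne, Function.update_self]
  · intro a _ b _ h
    simpa using congrFun h i
  · rw [slot, if_neg, zero_mul]
    refine fun h => hz (Finset.mem_image.2 ⟨z i, Finset.mem_univ _, ?_⟩)
    funext j
    by_cases hj : j = i
    · subst hj; rw [Function.update_self]
    · rw [Function.update_of_ne hj]; exact h j hj

lemma slot_mul (i : Fin n) (A B : Matrix ι ι ℝ) : slot i A * slot i B = slot i (A * B) := by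
  ext x y
  rw [slot_mul_apply]
  simp only [slot, Function.update_self, Matrix.mul_apply]
  by_cases h : ∀ j, j ≠ i → x j = y j
  · rw [if_pos h]
    refine Finset.sum_congr rfl fun a _ => ?_
    rw [if_pos fun j hj => by rw [Function.update_of_ne hj]; exact h j hj]
  · rw [if_neg h]
    refine Finset.sum_eq_zero fun a _ => ?_
    rw [if_neg fun h' => h fun j hj => by simpa [Function.update_of_ne hj] using h' j hj,
      mul_zero]

lemma slot_mul_of_ne {i j : Fin n} (hij : i ≠ j) (A B : Matrix ι ι ℝ) (x y : Fin n → ι) :
    (slot i A * slot j B) x y =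
      if ∀ k, k ≠ i → k ≠ j → x k = y k then A (x i) (y i) * B (x j) (y j) else 0 := by
  rw [slot_mul_apply, Finset.sum_eq_single (y i)]
  · simp only [slot, Function.update_of_ne hij.symm]
    by_cases h : ∀ k, k ≠ i → k ≠ j → x k = y k
    · rw [if_pos h, if_pos fun k hk => by
        by_cases hki : k = i
        · subst hki; rw [Function.update_self]
        · rw [Function.update_of_ne hki]; exact h k hki hk]
    · rw [if_neg h, if_neg fun h' => h fun k hki hkj => by
        simpa [Function.update_of_ne hki] using h' k hkj, mul_zero]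
  · intro a _ ha
    rw [slot, if_neg, mul_zero]
    exact fun h => ha (by simpa using h i hij)
  · simp

lemma slot_comm {i j : Fin n} (hij : i ≠ j) (A B : Matrix ι ι ℝ) :
    slot i A * slot j B = slot j B * slot i A := by
  ext x y
  rw [slot_mul_of_ne hij, slot_mul_of_ne hij.symm, mul_comm (A (x i) (y i))]
  congr 1
  exact propext ⟨fun h k hj hi => h k hi hj, fun h k hi hj => h k hj hi⟩

/-- A commutator of two slot sums is the slot sum of the commutator. -/
lemma sum_slot_comm (A B : Matrix ι ι ℝ) :
    (∑ i : Fin n, slot i A) * (∑ j, slot j B) - (∑ j : Fin n, slot j B) * (∑ i, slot i A) =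
      ∑ i : Fin n, slot i (A * B - B * A) := by
  simp only [Finset.sum_mul, Finset.mul_sum]
  rw [Finset.sum_comm (f := fun i j => slot j B * slot i A), ← Finset.sum_sub_distrib]
  refine Finset.sum_congr rfl fun i _ => ?_
  rw [← Finset.sum_sub_distrib, Finset.sum_eq_single i]
  · rw [slot_mul, slot_mul]
    ext x y
    simp only [slot, Matrix.sub_apply]
    split_ifs <;> simp
  · intro j _ hj
    rw [slot_comm (Ne.symm hj), sub_self]
  · simp

theorem IsRep.pi {s : Spin ι} (hs : s.IsRep) (n : ℕ) : (s.pi n).IsRep where
  diag := by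
    obtain ⟨z, hz⟩ := hs.diag
    refine ⟨fun x => ∑ i, z (x i), ?_⟩
    ext x y
    simp only [Spin.pi, Matrix.sum_apply, slot, hz, Matrix.diagonal_apply]
    by_cases h : x = y
    · subst h; simp
    · rw [if_neg h]
      refine Finset.sum_eq_zero fun i _ => ?_
      by_cases h1 : ∀ j, j ≠ i → x j = y j
      · rw [if_pos h1, if_neg]
        exact fun h2 => h (funext fun j => if hj : j = i then hj ▸ h2 else h1 j hj)
      · rw [if_neg h1]
  ZE := by
    simp only [Spin.pi, sum_slot_comm, hs.ZE, ← Finset.sum_neg_distrib]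
    refine Finset.sum_congr rfl fun i _ => ?_
    ext x y
    simp only [slot, Matrix.neg_apply]
    split_ifs <;> simp
  EEt := by
    simp only [Spin.pi, Matrix.transpose_sum, slot_transpose, sum_slot_comm, hs.EEt,
      Finset.smul_sum]
    refine Finset.sum_congr rfl fun i _ => ?_
    ext x y
    simp only [slot, Matrix.smul_apply, smul_eq_mul]
    split_ifs <;> simp

end Spin

end Vale.Agent.P359
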