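import Vale.Agent.P359.Spin.Rep
import Vale.Agent.P359.Core

/-!
# P359: the spins `Q/2`, `Q - 1` and the pair intertwiner

The orbital and pair spins satisfy the commutation relations, and `pairVec` intertwines the pair
spin with the tensor square of the orbital spin.
-/

namespace Vale.Agent.P359

open Finset Matrix
open scoped Kronecker

/-- The ladder coefficient of spin `D/2`. -/
noncomputable def lad (D : ℝ) (i : ℕ) : ℝ := Real.sqrt (((i : ℝ) + 1) * (D - i))

/-- The spin `D/2` operators on `Fin n`. -/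
noncomputable def ladder (n : ℕ) (D : ℝ) : Spin (Fin n) where
  E := fun i j => if (j : ℕ) = i + 1 then lad D i else 0
  Z := Matrix.diagonal fun i => ((i : ℕ) : ℝ) - D / 2

theorem spin_eq (Q : ℕ) : spin Q = ladder (Q + 1) Q := rfl

theorem pairSpin_eq (Q : ℕ) : pairSpin Q = ladder (2 * Q - 1) (2 * (Q : ℝ) - 2) := by
  simp only [pairSpin, ladder, lad]
  congr 1
  exact congrArg Matrix.diagonal (funext fun i => by ring)

theorem lad_sq {D : ℝ} {i : ℕ} (h : (i : ℝ) ≤ D) : lad D i * lad D i = ((i : ℝ) + 1) * (D - i) :=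
  Real.mul_self_sqrt (mul_nonneg (by positivity) (by linarith))

theorem ladder_E_apply {n : ℕ} (D : ℝ) (i j : Fin n) :
    (ladder n D).E i j = if (j : ℕ) = i + 1 then lad D i else 0 := rfl

theorem ladder_Z (n : ℕ) (D : ℝ) :
    (ladder n D).Z = Matrix.diagonal fun i : Fin n => ((i : ℕ) : ℝ) - D / 2 := rfl

theorem isRep_ladder {n : ℕ} {D : ℝ} (hD : n = 0 ∨ (n : ℝ) = D + 1) : (ladder n D).IsRep where
  diag := ⟨_, rfl⟩
  ZE := by
    ext i j
    simp only [ladder_Z, Matrix.sub_apply, Matrix.diagonal_mul, Matrix.mul_diagonal,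
      Matrix.neg_apply, ladder_E_apply]
    split_ifs with h
    · rw [h]; push_cast; ring
    · ring
  EEt := by
    ext i j
    have hn : (n : ℝ) = D + 1 := hD.resolve_left (by have := i.2; omega)
    have hb : ∀ k : Fin n, ((k : ℕ) : ℝ) ≤ D := fun k => by
      have : ((k : ℕ) : ℝ) + 1 ≤ n := by exact_mod_cast k.2
      linarith
    simp only [ladder_Z, Matrix.sub_apply, Matrix.mul_apply, Matrix.transpose_apply,
      Matrix.smul_apply, smul_eq_mul, ladder_E_apply]
    rcases eq_or_ne i j with rfl | hij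
    · rw [Matrix.diagonal_apply_eq]
      have e1 : ∀ x : Fin n, (if (x : ℕ) = i + 1 then lad D i else 0) *
          (if (x : ℕ) = i + 1 then lad D i else 0) =
          if (x : ℕ) = i + 1 then ((i : ℕ) + 1 : ℝ) * (D - (i : ℕ)) else 0 := fun x => by
        split_ifs with h
        · exact lad_sq (hb i)
        · simp
      have e2 : ∀ x : Fin n, (if (i : ℕ) = x + 1 then lad D x else 0) *
          (if (i : ℕ) = x + 1 then lad D x else 0) =
          if (i : ℕ) = x + 1 then ((i : ℕ) : ℝ) * (D - (i : ℕ) + 1) else 0 := fun x => by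
        split_ifs with h
        · rw [lad_sq (hb x), h]; push_cast; ring
        · simp
      rw [Finset.sum_congr rfl fun x _ => e1 x, Finset.sum_congr rfl fun x _ => e2 x]
      have s1 : (∑ x : Fin n, if (x : ℕ) = i + 1 then ((i : ℕ) + 1 : ℝ) * (D - (i : ℕ)) else 0)
          = ((i : ℕ) + 1 : ℝ) * (D - (i : ℕ)) := by
        by_cases h : (i : ℕ) + 1 < n
        · rw [Finset.sum_eq_single ⟨(i : ℕ) + 1, h⟩ (fun x _ hx => if_neg fun e => hx (Fin.ext e))
            (fun h' => absurd (Finset.mem_univ _) h'), if_pos rfl]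
        · have : (i : ℕ) + 1 = n := by have := i.2; omega
          have h2 : ((i : ℕ) : ℝ) + 1 = n := by exact_mod_cast this
          rw [Finset.sum_eq_zero fun x _ => if_neg (by have := x.2; omega),
            show D - ((i : ℕ) : ℝ) = 0 by linarith, mul_zero]
      have s2 : (∑ x : Fin n, if (i : ℕ) = x + 1 then ((i : ℕ) : ℝ) * (D - (i : ℕ) + 1) else 0)
          = ((i : ℕ) : ℝ) * (D - (i : ℕ) + 1) := by
        by_cases h : 1 ≤ (i : ℕ)
        · rw [Finset.sum_eq_single ⟨(i : ℕ) - 1, by have := i.2; omega⟩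
            (fun x _ hx => if_neg fun e => hx (Fin.ext (by simp; omega)))
            (fun h' => absurd (Finset.mem_univ _) h'), if_pos (by simp; omega)]
        · rw [Finset.sum_eq_zero fun x _ => if_neg (by omega),
            show ((i : ℕ) : ℝ) = 0 by exact_mod_cast (by omega : (i : ℕ) = 0), zero_mul]
      rw [s1, s2]; ring
    · rw [Matrix.diagonal_apply_ne _ hij, mul_zero]
      rw [Finset.sum_eq_zero fun x _ => ?_, Finset.sum_eq_zero fun x _ => ?_, sub_zero]
      · split_ifs with h1 h2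
        · exact absurd (Fin.ext (by omega)) hij
        all_goals simp
      · split_ifs with h1 h2
        · exact absurd (Fin.ext (by omega)) hij
        all_goals simp

theorem isRep_spin (Q : ℕ) : (spin Q).IsRep := by
  rw [spin_eq]; exact isRep_ladder (Or.inr (by push_cast; ring))

theorem isRep_pairSpin (Q : ℕ) : (pairSpin Q).IsRep := by
  rw [pairSpin_eq]
  refine isRep_ladder ?_
  rcases Nat.eq_zero_or_pos Q with h | h
  · exact Or.inl (by omega)
  · right; push_cast [Nat.cast_sub (show 1 ≤ 2 * Q by omega)]; ring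

/-! ## The intertwiner -/

/-- Entry function of a pair vector before normalisation, on natural numbers. -/
noncomputable def rawF (Q s a b : ℕ) : ℝ :=
  if a + b = s then ((a : ℝ) - b) * Real.sqrt ((Q.choose a : ℝ) * (Q.choose b : ℝ)) else 0

theorem pairRaw_eq (Q : ℕ) (M : Pair Q) (a b : Orb Q) :
    pairRaw Q M a b = rawF Q ((M : ℕ) + 1) a b := rfl

theorem lad_mul_sqrt_choose_succ {Q a : ℕ} (ha : a ≤ Q) :
    lad Q a * Real.sqrt (Q.choose (a + 1) : ℝ) = ((Q : ℝ) - a) * Real.sqrt (Q.choose a : ℝ) := by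
  have h0 : (0 : ℝ) ≤ (Q : ℝ) - a := by simp [sub_nonneg]; exact_mod_cast ha
  have h1 : ((Q.choose (a + 1) : ℝ)) * ((a : ℝ) + 1) = (Q.choose a : ℝ) * ((Q : ℝ) - a) := by
    have h := congrArg (Nat.cast (R := ℝ)) (Nat.choose_succ_right_eq Q a)
    push_cast [Nat.cast_sub ha] at h
    exact h
  rw [lad, ← Real.sqrt_mul (mul_nonneg (by positivity) h0)]
  nth_rewrite 2 [← Real.sqrt_sq h0]
  rw [← Real.sqrt_mul (sq_nonneg _)]
  congr 1
  linear_combination ((Q : ℝ) - a) * h1

theorem lad_mul_sqrt_choose {Q a : ℕ} (ha : a + 1 ≤ Q) :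
    lad Q a * Real.sqrt (Q.choose a : ℝ) = ((a : ℝ) + 1) * Real.sqrt (Q.choose (a + 1) : ℝ) := by
  have h1 := lad_mul_sqrt_choose_succ (show a ≤ Q by omega)
  have h2 : lad Q a * lad Q a = ((a : ℝ) + 1) * ((Q : ℝ) - a) :=
    lad_sq (by exact_mod_cast (show a ≤ Q by omega))
  have h3 : (0 : ℝ) < (Q : ℝ) - a := by
    have : (a : ℝ) + 1 ≤ Q := by exact_mod_cast ha
    linarith
  refine mul_left_cancel₀ h3.ne' ?_
  linear_combination -(lad Q a) * h1 + Real.sqrt (Q.choose (a + 1) : ℝ) * h2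

theorem rawF_lower {Q M a b : ℕ} (ha : a ≤ Q) (hb : b ≤ Q) :
    lad Q a * rawF Q (M + 1) (a + 1) b + lad Q b * rawF Q (M + 1) a (b + 1) =
      (2 * (Q : ℝ) - 1 - M) * rawF Q M a b := by
  simp only [rawF, show (a + 1 + b = M + 1) = (a + b = M) by simp; omega,
    show (a + (b + 1) = M + 1) = (a + b = M) by simp; omega]
  split_ifs with h
  · have h' : (a : ℝ) + b = M := by exact_mod_cast h
    rw [Real.sqrt_mul (Nat.cast_nonneg _), Real.sqrt_mul (Nat.cast_nonneg _),
      Real.sqrt_mul (Nat.cast_nonneg _)]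
    push_cast
    linear_combination ((a : ℝ) + 1 - b) * Real.sqrt (Q.choose b : ℝ) *
      lad_mul_sqrt_choose_succ ha + ((a : ℝ) - (b + 1)) * Real.sqrt (Q.choose a : ℝ) *
      lad_mul_sqrt_choose_succ hb - ((a : ℝ) - b) * Real.sqrt (Q.choose a : ℝ) *
      Real.sqrt (Q.choose b : ℝ) * h'
  · ring

theorem rawF_raise {Q s a b : ℕ} (ha : a ≤ Q) (hb : b ≤ Q) :
    (if 1 ≤ a then lad Q (a - 1) * rawF Q s (a - 1) b else 0) +
      (if 1 ≤ b then lad Q (b - 1) * rawF Q s a (b - 1) else 0) =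
      (s : ℝ) * rawF Q (s + 1) a b := by
  by_cases h : a + b = s + 1
  · have h' : (a : ℝ) + b = s + 1 := by exact_mod_cast h
    have e1 : (if 1 ≤ a then lad Q (a - 1) * rawF Q s (a - 1) b else 0) =
        ((a : ℝ) - 1 - b) * a * (Real.sqrt (Q.choose a : ℝ) * Real.sqrt (Q.choose b : ℝ)) := by
      rcases Nat.eq_zero_or_pos a with h0 | h0
      · subst h0; simp
      · obtain ⟨c, rfl⟩ : ∃ c, a = c + 1 := ⟨a - 1, by omega⟩
        rw [if_pos (by omega), Nat.add_sub_cancel, rawF, if_pos (by omega),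
          Real.sqrt_mul (Nat.cast_nonneg _)]
        push_cast
        linear_combination ((c : ℝ) - b) * Real.sqrt (Q.choose b : ℝ) *
          lad_mul_sqrt_choose (show c + 1 ≤ Q by omega)
    have e2 : (if 1 ≤ b then lad Q (b - 1) * rawF Q s a (b - 1) else 0) =
        ((a : ℝ) - b + 1) * b * (Real.sqrt (Q.choose a : ℝ) * Real.sqrt (Q.choose b : ℝ)) := by
      rcases Nat.eq_zero_or_pos b with h0 | h0
      · subst h0; simp
      · obtain ⟨c, rfl⟩ : ∃ c, b = c + 1 := ⟨b - 1, by omega⟩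
        rw [if_pos (by omega), Nat.add_sub_cancel, rawF, if_pos (by omega),
          Real.sqrt_mul (Nat.cast_nonneg _)]
        push_cast
        linear_combination ((a : ℝ) - c) * Real.sqrt (Q.choose a : ℝ) *
          lad_mul_sqrt_choose (show c + 1 ≤ Q by omega)
    rw [e1, e2, rawF, if_pos h, Real.sqrt_mul (Nat.cast_nonneg _)]
    linear_combination ((a : ℝ) - b) * (Real.sqrt (Q.choose a : ℝ) * Real.sqrt (Q.choose b : ℝ)) *
      h'
  · simp only [rawF, if_neg h, mul_zero]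
    rw [ite_eq_right_iff.2, ite_eq_right_iff.2, add_zero]
    · intro hb1; rw [if_neg (by omega), mul_zero]
    · intro ha1; rw [if_neg (by omega), mul_zero]

/-- The pair vectors as a matrix. -/
noncomputable def pairV (Q : ℕ) : Matrix (Orb Q × Orb Q) (Pair Q) ℝ :=
  fun p M => pairVec Q M p.1 p.2

theorem sum_lad_succ {Q : ℕ} (a : Orb Q) (f : ℕ → ℝ) :
    (∑ x : Orb Q, (if (x : ℕ) = a + 1 then lad Q a else 0) * f x) = lad Q a * f (a + 1) := by
  by_cases h : (a : ℕ) + 1 < Q + 1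
  · rw [Finset.sum_eq_single ⟨(a : ℕ) + 1, h⟩ (fun x _ hx => by
      rw [if_neg fun e => hx (Fin.ext e), zero_mul]) (fun h' => absurd (Finset.mem_univ _) h')]
    simp
  · have hl : lad Q a = 0 := by
      have : (a : ℕ) = Q := by have := a.2; omega
      simp [lad, this]
    simp [hl]

theorem sum_lad_pred {Q : ℕ} (a : Orb Q) (f : ℕ → ℝ) :
    (∑ x : Orb Q, (if (a : ℕ) = x + 1 then lad Q x else 0) * f x) =
      if 1 ≤ (a : ℕ) then lad Q ((a : ℕ) - 1) * f ((a : ℕ) - 1) else 0 := by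
  split_ifs with h
  · rw [Finset.sum_eq_single ⟨(a : ℕ) - 1, by have := a.2; omega⟩ (fun x _ hx => by
      rw [if_neg fun e => hx (Fin.ext (by simp; omega)), zero_mul])
      (fun h' => absurd (Finset.mem_univ _) h')]
    rw [if_pos (by simp; omega)]
  · exact Finset.sum_eq_zero fun x _ => by rw [if_neg (by omega), zero_mul]

theorem prod_E_apply (Q : ℕ) (a b a' b' : Orb Q) :
    ((spin Q).prod (spin Q)).E (a, b) (a', b') =
      (if (a' : ℕ) = a + 1 then lad Q a else 0) * (if b = b' then 1 else 0) +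
      (if a = a' then 1 else 0) * (if (b' : ℕ) = b + 1 then lad Q b else 0) := by
  show ((spin Q).E ⊗ₖ (1 : Matrix (Orb Q) (Orb Q) ℝ) +
    (1 : Matrix (Orb Q) (Orb Q) ℝ) ⊗ₖ (spin Q).E) (a, b) (a', b') = _
  rw [Matrix.add_apply, Matrix.kroneckerMap_apply, Matrix.kroneckerMap_apply, Matrix.one_apply,
    Matrix.one_apply]
  rfl

/-- `E` on an unnormalised pair vector. -/
theorem E_pairRaw (Q : ℕ) (M : Pair Q) (a b : Orb Q) :
    ∑ p : Orb Q × Orb Q, ((spin Q).prod (spin Q)).E (a, b) p * pairRaw Q M p.1 p.2 =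
      (2 * (Q : ℝ) - 1 - (M : ℕ)) * rawF Q M a b := by
  rw [← rawF_lower (Nat.le_of_lt_succ a.2) (Nat.le_of_lt_succ b.2), Fintype.sum_prod_type]
  simp only [prod_E_apply, pairRaw_eq, add_mul, Finset.sum_add_distrib]
  congr 1
  · rw [← sum_lad_succ a fun x => rawF Q ((M : ℕ) + 1) x b]
    simp
  · rw [← sum_lad_succ b fun x => rawF Q ((M : ℕ) + 1) a x, Finset.sum_comm]
    simp

/-- `Eᵀ` on an unnormalised pair vector. -/
theorem Et_pairRaw (Q : ℕ) (M : Pair Q) (a b : Orb Q) :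
    ∑ p : Orb Q × Orb Q, ((spin Q).prod (spin Q)).E p (a, b) * pairRaw Q M p.1 p.2 =
      (((M : ℕ) : ℝ) + 1) * rawF Q ((M : ℕ) + 2) a b := by
  have := rawF_raise (s := (M : ℕ) + 1) (Nat.le_of_lt_succ a.2) (Nat.le_of_lt_succ b.2)
  push_cast at this
  rw [← this, Fintype.sum_prod_type]
  simp only [prod_E_apply, pairRaw_eq, add_mul, Finset.sum_add_distrib]
  congr 1
  · rw [← sum_lad_pred a fun x => rawF Q ((M : ℕ) + 1) x b]
    simp
  · rw [← sum_lad_pred b fun x => rawF Q ((M : ℕ) + 1) a x, Finset.sum_comm]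
    simp

/-- The squared norm of an unnormalised pair vector. -/
noncomputable def pairNrm (Q : ℕ) (M : Pair Q) : ℝ := ∑ a, ∑ b, pairRaw Q M a b ^ 2

theorem pairNrm_pos (Q : ℕ) (M : Pair Q) : 0 < pairNrm Q M := pairRaw_sq_pos Q M

/-- Norms of neighbouring pair vectors. -/
theorem pairNrm_succ (Q : ℕ) (i j : Pair Q) (h : (j : ℕ) = i + 1) :
    (2 * (Q : ℝ) - 2 - (i : ℕ)) * pairNrm Q i = (((i : ℕ) : ℝ) + 1) * pairNrm Q j := by
  have e : ∀ k : Pair Q, pairNrm Q k = ∑ p : Orb Q × Orb Q, pairRaw Q k p.1 p.2 ^ 2 := fun k => by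
    rw [pairNrm, Fintype.sum_prod_type]
  calc (2 * (Q : ℝ) - 2 - (i : ℕ)) * pairNrm Q i
      = ∑ x : Orb Q × Orb Q, pairRaw Q i x.1 x.2 *
          ∑ p : Orb Q × Orb Q, ((spin Q).prod (spin Q)).E x p * pairRaw Q j p.1 p.2 := by
        rw [e, Finset.mul_sum]
        refine Finset.sum_congr rfl fun x _ => ?_
        rw [E_pairRaw Q j x.1 x.2, pairRaw_eq, h]
        push_cast; ring
    _ = ∑ p : Orb Q × Orb Q, pairRaw Q j p.1 p.2 *
          ∑ x : Orb Q × Orb Q, ((spin Q).prod (spin Q)).E x p * pairRaw Q i x.1 x.2 := by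
        simp only [Finset.mul_sum]
        rw [Finset.sum_comm]
        exact Finset.sum_congr rfl fun p _ => Finset.sum_congr rfl fun x _ => by ring
    _ = _ := by
        rw [e, Finset.mul_sum]
        refine Finset.sum_congr rfl fun p _ => ?_
        rw [Et_pairRaw Q i p.1 p.2, pairRaw_eq, h]
        ring

theorem pairV_eq (Q : ℕ) (p : Orb Q × Orb Q) (M : Pair Q) :
    pairV Q p M = pairRaw Q M p.1 p.2 / Real.sqrt (pairNrm Q M) := rfl

/-- The ladder coefficient between neighbouring normalised pair vectors. -/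
theorem lad_pair (Q : ℕ) (i j : Pair Q) (h : (j : ℕ) = i + 1) :
    lad (2 * (Q : ℝ) - 2) i * Real.sqrt (pairNrm Q j)
        = (2 * (Q : ℝ) - 2 - (i : ℕ)) * Real.sqrt (pairNrm Q i) ∧
      lad (2 * (Q : ℝ) - 2) i * Real.sqrt (pairNrm Q i)
        = (((i : ℕ) : ℝ) + 1) * Real.sqrt (pairNrm Q j) := by
  have hd : (0 : ℝ) ≤ 2 * (Q : ℝ) - 2 - (i : ℕ) := by
    have : ((i : ℕ) : ℝ) + 2 ≤ 2 * Q := by exact_mod_cast (by have := j.2; omega : (i : ℕ) + 2 ≤ 2 * Q)
    linarith
  have hc : (0 : ℝ) ≤ ((i : ℕ) : ℝ) + 1 := by positivity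
  constructor
  · rw [lad, ← Real.sqrt_mul (mul_nonneg hc hd)]
    nth_rewrite 2 [← Real.sqrt_sq hd]
    rw [← Real.sqrt_mul (sq_nonneg _)]
    congr 1
    linear_combination -(2 * (Q : ℝ) - 2 - (i : ℕ)) * pairNrm_succ Q i j h
  · rw [lad, ← Real.sqrt_mul (mul_nonneg hc hd)]
    nth_rewrite 2 [← Real.sqrt_sq hc]
    rw [← Real.sqrt_mul (sq_nonneg _)]
    congr 1
    linear_combination (((i : ℕ) : ℝ) + 1) * pairNrm_succ Q i j h

theorem pairSpin_E_apply (Q : ℕ) (i j : Pair Q) :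
    (pairSpin Q).E i j = if (j : ℕ) = i + 1 then lad (2 * (Q : ℝ) - 2) i else 0 := rfl

theorem rawF_zero (Q a b : ℕ) : rawF Q 0 a b = 0 := by
  unfold rawF
  split_ifs with h
  · obtain ⟨rfl, rfl⟩ : a = 0 ∧ b = 0 := by omega
    simp
  · rfl

theorem rawF_top {Q a b : ℕ} (ha : a ≤ Q) (hb : b ≤ Q) : rawF Q (2 * Q) a b = 0 := by
  unfold rawF
  split_ifs with h
  · obtain ⟨rfl, rfl⟩ : a = Q ∧ b = Q := by omega
    simp
  · rfl

/-- `pairVec` intertwines the pair spin with two orbital spins. -/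
theorem intertwines_pairV (Q : ℕ) :
    Spin.Intertwines (pairSpin Q) ((spin Q).prod (spin Q)) (pairV Q) := by
  refine ⟨?_, ?_, ?_⟩
  · ext p M
    obtain ⟨a, b⟩ := p
    simp only [Matrix.mul_apply, pairV_eq, pairSpin_E_apply]
    simp only [← mul_div_assoc, ← Finset.sum_div, E_pairRaw]
    rcases Nat.eq_zero_or_pos (M : ℕ) with h0 | h0
    · rw [h0, rawF_zero, mul_zero, zero_div]
      exact (Finset.sum_eq_zero fun x _ => by rw [if_neg (by omega), mul_zero]).symm
    · let i : Pair Q := ⟨(M : ℕ) - 1, by have := M.2; omega⟩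
      have hi : (M : ℕ) = (i : ℕ) + 1 := by simp [i]; omega
      rw [Finset.sum_eq_single i (fun x _ hx => by
        rw [if_neg fun e => hx (Fin.ext (by omega)), mul_zero])
        (fun h' => absurd (Finset.mem_univ _) h'), if_pos hi, pairRaw_eq]
      have hM := (Real.sqrt_pos.2 (pairNrm_pos Q M)).ne'
      have hI := (Real.sqrt_pos.2 (pairNrm_pos Q i)).ne'
      have hl := (lad_pair Q i M hi).1
      rw [hi]
      generalize lad (2 * (Q : ℝ) - 2) (i : ℕ) = l at hl ⊢
      field_simp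
      push_cast
      linear_combination -(rawF Q ((i : ℕ) + 1) a b) * hl
  · ext p M
    obtain ⟨a, b⟩ := p
    simp only [Matrix.mul_apply, Matrix.transpose_apply, pairV_eq, pairSpin_E_apply]
    simp only [← mul_div_assoc, ← Finset.sum_div, Et_pairRaw]
    by_cases h1 : (M : ℕ) + 1 < 2 * Q - 1
    · let j : Pair Q := ⟨(M : ℕ) + 1, h1⟩
      rw [Finset.sum_eq_single j (fun x _ hx => by
        rw [if_neg fun e => hx (Fin.ext e), mul_zero])
        (fun h' => absurd (Finset.mem_univ _) h'), if_pos rfl, pairRaw_eq]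
      have hM := (Real.sqrt_pos.2 (pairNrm_pos Q M)).ne'
      have hJ := (Real.sqrt_pos.2 (pairNrm_pos Q j)).ne'
      have hl := (lad_pair Q M j rfl).2
      show (((M : ℕ) : ℝ) + 1) * rawF Q ((M : ℕ) + 2) a b / _ = rawF Q ((M : ℕ) + 2) a b / _ * _
      generalize lad (2 * (Q : ℝ) - 2) (M : ℕ) = l at hl ⊢
      field_simp
      linear_combination -(rawF Q ((M : ℕ) + 2) a b) * hl
    · have hM2 : (M : ℕ) + 2 = 2 * Q := by have := M.2; omega
      rw [hM2, rawF_top (Nat.le_of_lt_succ a.2) (Nat.le_of_lt_succ b.2), mul_zero, zero_div]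
      exact (Finset.sum_eq_zero fun x _ => by
        rw [if_neg (by have := x.2; omega), mul_zero]).symm
  · obtain ⟨z, hz⟩ := ((isRep_spin Q).prod (isRep_spin Q)).diag
    ext p M
    obtain ⟨a, b⟩ := p
    have hza : z (a, b) = ((a : ℕ) : ℝ) - (Q : ℝ) / 2 + (((b : ℕ) : ℝ) - (Q : ℝ) / 2) := by
      have := congrFun (congrFun hz (a, b)) (a, b)
      simpa [Spin.prod, spin, Matrix.kronecker, Matrix.kroneckerMap_apply, eq_comm] using this
    rw [hz, Matrix.diagonal_mul, hza]
    simp only [pairSpin, Matrix.mul_diagonal, pairV_eq, pairRaw_eq, rawF]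
    split_ifs with h
    · have h' : ((a : ℕ) : ℝ) + (b : ℕ) = (M : ℕ) + 1 := by exact_mod_cast h
      linear_combination (((a : ℕ) : ℝ) - (b : ℕ)) *
        Real.sqrt ((Q.choose a : ℝ) * (Q.choose b : ℝ)) / Real.sqrt (pairNrm Q M) * h'
    · simp

end Vale.Agent.P359
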