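import Vale.Agent.P359.Avg

/-!
# P359: highest weight vectors of spin operators

`Spin.IsRep` collects the commutation relations. For a highest weight vector `v` of weight `w` the
lowered vectors `(Eᵀ)^k v` have squared norms `hwCoef w k`, vanish after `-2w` steps, span the
test operators for averages, and positivity of an invariant symmetric operator can be tested on
highest weight vectors.
-/

namespace Vale.Agent.P359

open Finset Matrix
open scoped Kronecker

namespace Spin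

/-- The commutation relations of the lowering derivative `E`, its transpose and the diagonal
weight. -/
structure IsRep {ι : Type*} [Fintype ι] [DecidableEq ι] (s : Spin ι) : Prop where
  diag : ∃ z : ι → ℝ, s.Z = Matrix.diagonal z
  ZE : s.Z * s.E - s.E * s.Z = -s.E
  EEt : s.E * s.Eᵀ - s.Eᵀ * s.E = (-2 : ℝ) • s.Z

variable {ι κ : Type*} [Fintype ι] [Fintype κ] [DecidableEq ι] [DecidableEq κ]
variable {s : Spin ι} {t : Spin κ}

lemma IsRep.Z_isSymm (hs : s.IsRep) : s.Z.IsSymm := by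
  obtain ⟨z, hz⟩ := hs.diag
  rw [hz]; exact Matrix.isSymm_diagonal z

lemma IsRep.ZEt (hs : s.IsRep) : s.Z * s.Eᵀ - s.Eᵀ * s.Z = s.Eᵀ := by
  have h := congrArg Matrix.transpose hs.ZE
  rw [transpose_sub, transpose_mul, transpose_mul, hs.Z_isSymm.eq, transpose_neg] at h
  rw [← neg_sub, h, neg_neg]

/-! ## Products -/

theorem IsRep.prod (hs : s.IsRep) (ht : t.IsRep) : (s.prod t).IsRep where
  diag := by
    obtain ⟨z, hz⟩ := hs.diag
    obtain ⟨z', hz'⟩ := ht.diag
    refine ⟨fun p => z p.1 + z' p.2, ?_⟩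
    show s.Z ⊗ₖ (1 : Matrix κ κ ℝ) + (1 : Matrix ι ι ℝ) ⊗ₖ t.Z = _
    rw [hz, hz', ← Matrix.diagonal_one, ← Matrix.diagonal_one, diagonal_kronecker_diagonal,
      diagonal_kronecker_diagonal, diagonal_add]
    simp
  ZE := by
    show (s.Z ⊗ₖ (1 : Matrix κ κ ℝ) + (1 : Matrix ι ι ℝ) ⊗ₖ t.Z) *
        (s.E ⊗ₖ (1 : Matrix κ κ ℝ) + (1 : Matrix ι ι ℝ) ⊗ₖ t.E) -
        (s.E ⊗ₖ (1 : Matrix κ κ ℝ) + (1 : Matrix ι ι ℝ) ⊗ₖ t.E) *
        (s.Z ⊗ₖ (1 : Matrix κ κ ℝ) + (1 : Matrix ι ι ℝ) ⊗ₖ t.Z) =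
        -(s.E ⊗ₖ (1 : Matrix κ κ ℝ) + (1 : Matrix ι ι ℝ) ⊗ₖ t.E)
    simp only [Matrix.add_mul, Matrix.mul_add, ← Matrix.mul_kronecker_mul, Matrix.one_mul,
      Matrix.mul_one]
    rw [sub_eq_iff_eq_add.1 hs.ZE, sub_eq_iff_eq_add.1 ht.ZE, Matrix.add_kronecker,
      Matrix.kronecker_add, ← neg_one_smul ℝ s.E, ← neg_one_smul ℝ t.E, Matrix.smul_kronecker,
      Matrix.kronecker_smul]
    module
  EEt := by
    show (s.E ⊗ₖ (1 : Matrix κ κ ℝ) + (1 : Matrix ι ι ℝ) ⊗ₖ t.E) *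
        (s.E ⊗ₖ (1 : Matrix κ κ ℝ) + (1 : Matrix ι ι ℝ) ⊗ₖ t.E)ᵀ -
        (s.E ⊗ₖ (1 : Matrix κ κ ℝ) + (1 : Matrix ι ι ℝ) ⊗ₖ t.E)ᵀ *
        (s.E ⊗ₖ (1 : Matrix κ κ ℝ) + (1 : Matrix ι ι ℝ) ⊗ₖ t.E) =
        (-2 : ℝ) • (s.Z ⊗ₖ (1 : Matrix κ κ ℝ) + (1 : Matrix ι ι ℝ) ⊗ₖ t.Z)
    simp only [Matrix.transpose_add, ← Matrix.kroneckerMap_transpose, Matrix.transpose_one,
      Matrix.add_mul, Matrix.mul_add, ← Matrix.mul_kronecker_mul, Matrix.one_mul,
      Matrix.mul_one]
    rw [sub_eq_iff_eq_add.1 hs.EEt, sub_eq_iff_eq_add.1 ht.EEt, Matrix.add_kronecker,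
      Matrix.kronecker_add, Matrix.smul_kronecker, Matrix.kronecker_smul]
    module

theorem IsRep.submatrix {s' : Spin κ} (hs : s.IsRep) (e : κ ≃ ι)
    (hE : s'.E = s.E.submatrix e e) (hZ : s'.Z = s.Z.submatrix e e) : s'.IsRep where
  diag := by
    obtain ⟨z, hz⟩ := hs.diag
    exact ⟨z ∘ e, by rw [hZ, hz, Matrix.submatrix_diagonal z e e.injective]⟩
  ZE := by
    rw [hE, hZ, Matrix.submatrix_mul_equiv, Matrix.submatrix_mul_equiv]
    ext i j
    exact congrFun (congrFun hs.ZE (e i)) (e j)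
  EEt := by
    rw [hE, hZ, Matrix.transpose_submatrix, Matrix.submatrix_mul_equiv,
      Matrix.submatrix_mul_equiv]
    ext i j
    exact congrFun (congrFun hs.EEt (e i)) (e j)

/-! ## Lowered vectors -/

/-- The vectors `(Eᵀ)^k v`. -/
def lower (s : Spin ι) (v : ι → ℝ) : ℕ → ι → ℝ
  | 0 => v
  | k + 1 => s.Eᵀ *ᵥ lower s v k

omit [DecidableEq ι] in
@[simp] lemma lower_zero (v : ι → ℝ) : s.lower v 0 = v := rfl

omit [DecidableEq ι] in
lemma lower_succ (v : ι → ℝ) (k : ℕ) : s.lower v (k + 1) = s.Eᵀ *ᵥ s.lower v k := rfl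

/-- The squared norm of the `k`-th lowered vector of a unit highest weight vector. -/
def hwCoef (w : ℝ) (k : ℕ) : ℝ := ∏ r ∈ Finset.range k, (((r : ℝ) + 1) * (-2 * w - r))

@[simp] lemma hwCoef_zero (w : ℝ) : hwCoef w 0 = 1 := by simp [hwCoef]

lemma hwCoef_succ (w : ℝ) (k : ℕ) :
    hwCoef w (k + 1) = hwCoef w k * (((k : ℝ) + 1) * (-2 * w - k)) := by
  simp [hwCoef, Finset.prod_range_succ]

lemma hwCoef_pos {w : ℝ} {m k : ℕ} (hw : -2 * w = m) (hk : k ≤ m) : 0 < hwCoef w k := by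
  refine Finset.prod_pos fun r hr => mul_pos (by positivity) ?_
  have : (r : ℝ) + 1 ≤ m := by exact_mod_cast lt_of_lt_of_le (Finset.mem_range.1 hr) hk
  rw [hw]; linarith

lemma hwCoef_eq_factorial {w : ℝ} {m k : ℕ} (hw : -2 * w = m) (hk : k ≤ m) :
    hwCoef w k = (k.factorial : ℝ) ^ 2 * (m.choose k : ℝ) := by
  induction k with
  | zero => simp
  | succ k ih =>
    rw [hwCoef_succ, ih (by omega), hw, Nat.factorial_succ]
    have h2 : ((m.choose (k + 1) : ℝ)) * ((k : ℝ) + 1) = (m.choose k : ℝ) * ((m : ℝ) - k) := by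
      have h := congrArg (Nat.cast (R := ℝ)) (Nat.choose_succ_right_eq m k)
      push_cast [Nat.cast_sub (show k ≤ m by omega)] at h
      exact h
    push_cast
    linear_combination (-((k.factorial : ℝ) ^ 2) * ((k : ℝ) + 1)) * h2

variable {w : ℝ} {v v' : ι → ℝ}

omit [DecidableEq ι] in
lemma dotProduct_Et_mulVec (x y : ι → ℝ) : (s.Eᵀ *ᵥ x) ⬝ᵥ y = x ⬝ᵥ (s.E *ᵥ y) := by
  rw [Matrix.mulVec_transpose, Matrix.dotProduct_mulVec]

lemma IsRep.Z_lower (hs : s.IsRep) (hv : s.IsHW w v) (k : ℕ) :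
    s.Z *ᵥ s.lower v k = (w + k) • s.lower v k := by
  induction k with
  | zero => simpa using hv.2
  | succ k ih =>
    have h := congrArg (fun A => A *ᵥ s.lower v k) hs.ZEt
    simp only [Matrix.sub_mulVec, ← Matrix.mulVec_mulVec, ih, Matrix.mulVec_smul] at h
    rw [lower_succ, sub_eq_iff_eq_add.1 h]
    push_cast
    module

lemma IsRep.E_lower_succ (hs : s.IsRep) (hv : s.IsHW w v) (k : ℕ) :
    s.E *ᵥ s.lower v (k + 1) = (((k : ℝ) + 1) * (-2 * w - k)) • s.lower v k := by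
  have key : ∀ j, s.E *ᵥ s.lower v (j + 1)
      = s.Eᵀ *ᵥ (s.E *ᵥ s.lower v j) + (-2 * (w + j)) • s.lower v j := fun j => by
    have h := congrArg (fun A => A *ᵥ s.lower v j) hs.EEt
    simp only [Matrix.sub_mulVec, Matrix.smul_mulVec, ← Matrix.mulVec_mulVec,
      hs.Z_lower hv j, smul_smul] at h
    rw [lower_succ, sub_eq_iff_eq_add.1 h]
    module
  induction k with
  | zero => rw [key, lower_zero, hv.1, Matrix.mulVec_zero, zero_add]; simp
  | succ k ih =>
    rw [key, ih, Matrix.mulVec_smul, ← lower_succ, ← add_smul]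
    congr 1
    push_cast; ring

lemma IsRep.dot_lower (hs : s.IsRep) (hv' : s.IsHW w v') (k : ℕ) :
    s.lower v k ⬝ᵥ s.lower v' k = hwCoef w k * (v ⬝ᵥ v') := by
  induction k with
  | zero => simp
  | succ k ih =>
    rw [lower_succ, dotProduct_Et_mulVec, hs.E_lower_succ hv', dotProduct_smul, ih, hwCoef_succ,
      smul_eq_mul]
    ring

omit [DecidableEq ι] in
lemma lower_eq_zero_of_le {k l : ℕ} (h : s.lower v k = 0) (hkl : k ≤ l) : s.lower v l = 0 := by
  induction hkl with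
  | refl => exact h
  | step _ ih => rw [lower_succ, ih, Matrix.mulVec_zero]

/-- Distinct weights are finitely many, so lowering terminates. -/
lemma IsRep.exists_lower_eq_zero (hs : s.IsRep) (hv : s.IsHW w v) :
    ∃ k, s.lower v k = 0 := by
  obtain ⟨z, hz⟩ := hs.diag
  by_contra! h
  have h2 : ∀ k : ℕ, ∃ i, z i = w + k := by
    intro k
    obtain ⟨i, hi⟩ := Function.ne_iff.1 (h k)
    have h3 := congrFun (hs.Z_lower hv k) i
    rw [hz, Matrix.mulVec_diagonal, Pi.smul_apply, smul_eq_mul] at h3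
    exact ⟨i, mul_right_cancel₀ hi h3⟩
  choose f hf using h2
  exact not_injective_infinite_finite f fun a b hab => by
    have := congrArg z hab
    rw [hf, hf] at this
    exact_mod_cast add_left_cancel this

/-- A nonzero highest weight vector has weight minus half a natural number. -/
theorem IsRep.exists_dim (hs : s.IsRep) (hv : s.IsHW w v) (hv0 : v ≠ 0) :
    ∃ m : ℕ, -2 * w = m := by
  classical
  have h := hs.exists_lower_eq_zero hv
  have h0 := Nat.find_spec h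
  obtain ⟨m, hm⟩ : ∃ m, Nat.find h = m + 1 := by
    refine Nat.exists_eq_succ_of_ne_zero fun h1 => hv0 ?_
    simpa [h1] using h0
  have hne : s.lower v m ≠ 0 := Nat.find_min h (by omega)
  rw [hm] at h0
  have h2 := hs.E_lower_succ hv m
  rw [h0, Matrix.mulVec_zero, eq_comm, smul_eq_zero] at h2
  rcases mul_eq_zero.1 (h2.resolve_right hne) with h3 | h3
  · exact absurd h3 (by positivity)
  · exact ⟨m, by linarith⟩

/-- Lowering a highest weight vector of weight `-m/2` stops after `m` steps. -/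
theorem IsRep.lower_eq_zero (hs : s.IsRep) (hv : s.IsHW w v) {m k : ℕ} (hw : -2 * w = m)
    (hk : m < k) : s.lower v k = 0 := by
  refine lower_eq_zero_of_le ?_ (show m + 1 ≤ k from hk)
  rw [← dotProduct_self_eq_zero, hs.dot_lower hv, hwCoef_succ, hw]
  simp

/-! ## The test operator and averages -/

/-- `∑ |F^k v⟩⟨F^k v'| / c_k`. -/
noncomputable def hwOp (s : Spin ι) (w : ℝ) (m : ℕ) (v v' : ι → ℝ) : Matrix ι ι ℝ :=
  ∑ k ∈ Finset.range (m + 1),
    (hwCoef w k)⁻¹ • Matrix.vecMulVec (s.lower v k) (s.lower v' k)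

theorem IsRep.invariant_hwOp (hs : s.IsRep) (hv : s.IsHW w v) (hv' : s.IsHW w v') {m : ℕ}
    (hw : -2 * w = m) : s.Invariant (s.hwOp w m v v') := by
  have hz1 := hs.lower_eq_zero hv hw (Nat.lt_succ_self m)
  have hz2 := hs.lower_eq_zero hv' hw (Nat.lt_succ_self m)
  have hshift : ∀ j < m,
      (hwCoef w (j + 1))⁻¹ * (((j : ℝ) + 1) * (-2 * w - j)) = (hwCoef w j)⁻¹ := by
    intro j hj
    have h2 := (hwCoef_pos hw (show j + 1 ≤ m from hj)).ne'
    rw [hwCoef_succ] at h2 ⊢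
    rw [mul_inv, mul_assoc, inv_mul_cancel₀ (right_ne_zero_of_mul h2), mul_one]
  refine ⟨?_, ?_, ?_⟩
  · simp only [hwOp, Matrix.sum_mul, Matrix.mul_sum, Matrix.smul_mul, Matrix.mul_smul,
      Matrix.vecMulVec_mul, Matrix.mul_vecMulVec, ← Matrix.mulVec_transpose, ← lower_succ]
    rw [Finset.sum_range_succ _ m, Finset.sum_range_succ' _ m, hz2, lower_zero v, lower_zero v', hv.1,
      Matrix.vecMulVec_zero, Matrix.zero_vecMulVec, smul_zero, smul_zero, add_zero, add_zero]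
    refine Finset.sum_congr rfl fun j hj => ?_
    rw [hs.E_lower_succ hv, Matrix.smul_vecMulVec, smul_smul, hshift j (Finset.mem_range.1 hj)]
  · simp only [hwOp, Matrix.sum_mul, Matrix.mul_sum, Matrix.smul_mul, Matrix.mul_smul,
      Matrix.vecMulVec_mul, Matrix.mul_vecMulVec, Matrix.vecMul_transpose, ← lower_succ]
    rw [Finset.sum_range_succ' _ m, Finset.sum_range_succ _ m, hz1, lower_zero v, lower_zero v', hv'.1,
      Matrix.vecMulVec_zero, Matrix.zero_vecMulVec, smul_zero, smul_zero, add_zero, add_zero]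
    refine Finset.sum_congr rfl fun j hj => ?_
    rw [hs.E_lower_succ hv', Matrix.vecMulVec_smul, smul_smul, hshift j (Finset.mem_range.1 hj)]
  · simp only [hwOp, Matrix.sum_mul, Matrix.mul_sum, Matrix.smul_mul, Matrix.mul_smul,
      Matrix.vecMulVec_mul, Matrix.mul_vecMulVec, ← Matrix.mulVec_transpose, hs.Z_isSymm.eq,
      hs.Z_lower hv, hs.Z_lower hv', Matrix.vecMulVec_smul, Matrix.smul_vecMulVec]

omit [DecidableEq ι] in
lemma IsHW.mulVec {T : Matrix ι ι ℝ} (hv : s.IsHW w v) (hT : s.Invariant T) :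
    s.IsHW w (T *ᵥ v) := by
  refine ⟨?_, ?_⟩
  · rw [Matrix.mulVec_mulVec, ← hT.1, ← Matrix.mulVec_mulVec, hv.1, Matrix.mulVec_zero]
  · rw [Matrix.mulVec_mulVec, ← hT.2.2, ← Matrix.mulVec_mulVec, hv.2, Matrix.mulVec_smul]

omit [DecidableEq ι] in
lemma Invariant.mulVec_lower {T : Matrix ι ι ℝ} (hT : s.Invariant T) (v : ι → ℝ) (k : ℕ) :
    T *ᵥ s.lower v k = s.lower (T *ᵥ v) k := by
  induction k with
  | zero => rfl
  | succ k ih =>
    rw [lower_succ, lower_succ, ← ih, Matrix.mulVec_mulVec, hT.2.1, ← Matrix.mulVec_mulVec]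

omit [DecidableEq ι] in
lemma trace_transpose_vecMulVec_mul (x y : ι → ℝ) (Y : Matrix ι ι ℝ) :
    ((Matrix.vecMulVec x y)ᵀ * Y).trace = x ⬝ᵥ (Y *ᵥ y) := by
  rw [Matrix.transpose_vecMulVec, Matrix.vecMulVec_mul, Matrix.trace_vecMulVec,
    Matrix.dotProduct_mulVec, dotProduct_comm]

/-- Matrix elements of an average between highest weight vectors. -/
theorem IsAvg.hw_eq (hs : s.IsRep) {X Y : Matrix ι ι ℝ} (h : s.IsAvg X Y) (hv : s.IsHW w v)
    (hv' : s.IsHW w v') {m : ℕ} (hw : -2 * w = m) :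
    ((m : ℝ) + 1) * (v ⬝ᵥ (Y *ᵥ v')) =
      ∑ k ∈ Finset.range (m + 1), (s.lower v k ⬝ᵥ (X *ᵥ s.lower v' k)) / hwCoef w k := by
  have h1 := h.2 _ (hs.invariant_hwOp hv hv' hw)
  simp only [hwOp, Matrix.transpose_sum, Matrix.transpose_smul, Matrix.sum_mul, Matrix.smul_mul,
    Matrix.trace_sum, Matrix.trace_smul, trace_transpose_vecMulVec_mul, smul_eq_mul] at h1
  rw [Finset.sum_congr rfl (fun k hk => ?_) (g := fun _ => v ⬝ᵥ (Y *ᵥ v')), Finset.sum_const,
    Finset.card_range, nsmul_eq_mul, Nat.cast_add_one] at h1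
  · rw [h1]
    exact Finset.sum_congr rfl fun k _ => (div_eq_inv_mul _ _).symm
  · have hc := hwCoef_pos hw (Nat.lt_succ_iff.1 (Finset.mem_range.1 hk))
    rw [h.1.mulVec_lower, hs.dot_lower (hv'.mulVec h.1), ← mul_assoc, inv_mul_cancel₀ hc.ne',
      one_mul]

/-- Positivity of an invariant symmetric operator is decided on highest weight vectors. -/
theorem IsRep.posSemidef_of_hw (hs : s.IsRep) {T : Matrix ι ι ℝ} (hT : s.Invariant T)
    (hsym : T.IsSymm) (hpos : ∀ w v, s.IsHW w v → 0 ≤ v ⬝ᵥ (T *ᵥ v)) : T.PosSemidef := by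
  classical
  have hH : T.IsHermitian := by
    rw [Matrix.IsHermitian, Matrix.conjTranspose_eq_transpose_of_trivial]; exact hsym
  rw [hH.posSemidef_iff_eigenvalues_nonneg]
  intro i₀
  by_contra hneg
  set lam := hH.eigenvalues i₀
  have hlam : lam < 0 := not_le.1 hneg
  obtain ⟨z, hz⟩ := hs.diag
  have hne : (hH.eigenvectorBasis i₀).ofLp ≠ 0 := fun h0 => by
    have : hH.eigenvectorBasis i₀ = 0 := by ext j; simpa using congrFun h0 j
    exact (hH.eigenvectorBasis.orthonormal.ne_zero i₀) this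
  set P : ι → Prop := fun i => ∃ u : ι → ℝ, T *ᵥ u = lam • u ∧ u i ≠ 0 with hP
  have hex : (Finset.univ.filter P).Nonempty := by
    obtain ⟨i, hi⟩ := Function.ne_iff.1 hne
    exact ⟨i, Finset.mem_filter.2 ⟨Finset.mem_univ _, _, hH.mulVec_eigenvectorBasis i₀, hi⟩⟩
  obtain ⟨i, hi, hmin⟩ := (Finset.univ.filter P).exists_min_image z hex
  obtain ⟨-, u, hu, hui⟩ := Finset.mem_filter.1 hi
  set u' : ι → ℝ := fun j => if z j = z i then u j else 0 with hu'
  have hTz : ∀ j k, z j ≠ z k → T j k = 0 := by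
    intro j k hjk
    have h := congrFun (congrFun hT.2.2 j) k
    rw [hz, Matrix.mul_diagonal, Matrix.diagonal_mul] at h
    have : (z k - z j) * T j k = 0 := by linarith
    exact (mul_eq_zero.1 this).resolve_left (sub_ne_zero.2 (Ne.symm hjk))
  have hu'eig : T *ᵥ u' = lam • u' := by
    funext j
    have hj := congrFun hu j
    simp only [Matrix.mulVec, dotProduct, Pi.smul_apply, smul_eq_mul, hu'] at hj ⊢
    by_cases hji : z j = z i
    · rw [if_pos hji, ← hj]
      refine Finset.sum_congr rfl fun k _ => ?_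
      by_cases hk : z k = z i
      · rw [if_pos hk]
      · rw [if_neg hk, mul_zero, hTz j k (by rw [hji]; exact Ne.symm hk), zero_mul]
    · rw [if_neg hji, mul_zero]
      refine Finset.sum_eq_zero fun k _ => ?_
      by_cases hk : z k = z i
      · rw [hTz j k (by rw [hk]; exact hji), zero_mul]
      · rw [if_neg hk, mul_zero]
  have hZu : s.Z *ᵥ u' = z i • u' := by
    funext j
    rw [hz, Matrix.mulVec_diagonal, Pi.smul_apply, smul_eq_mul]
    by_cases hji : z j = z i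
    · rw [hji]
    · simp [hu', hji]
  have hEu : s.E *ᵥ u' = 0 := by
    funext j
    by_contra hj
    have hw1 : s.Z *ᵥ (s.E *ᵥ u') = (z i - 1) • (s.E *ᵥ u') := by
      have h := congrArg (fun A => A *ᵥ u') hs.ZE
      simp only [Matrix.sub_mulVec, Matrix.neg_mulVec, ← Matrix.mulVec_mulVec, hZu,
        Matrix.mulVec_smul] at h
      rw [sub_eq_iff_eq_add.1 h]; module
    have hzj : z j = z i - 1 := by
      have h := congrFun hw1 j
      rw [hz, Matrix.mulVec_diagonal, Pi.smul_apply, smul_eq_mul] at h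
      exact mul_right_cancel₀ hj h
    have hPj : j ∈ Finset.univ.filter P := by
      refine Finset.mem_filter.2 ⟨Finset.mem_univ _, s.E *ᵥ u', ?_, hj⟩
      rw [Matrix.mulVec_mulVec, hT.1, ← Matrix.mulVec_mulVec, hu'eig, Matrix.mulVec_smul]
    linarith [hmin j hPj]
  have h0 := hpos (z i) u' ⟨hEu, hZu⟩
  rw [hu'eig, dotProduct_smul, smul_eq_mul] at h0
  have hsq : 0 < u' ⬝ᵥ u' := by
    refine lt_of_lt_of_le (mul_self_pos.2 hui) ?_
    have := Finset.single_le_sum (f := fun j => u' j * u' j) (fun j _ => mul_self_nonneg _)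
      (Finset.mem_univ i)
    simpa [hu', dotProduct] using this
  nlinarith

/-! ## Intertwiners -/

omit [DecidableEq ι] [DecidableEq κ] in
/-- `V` commutes with the spin operators of `s` (source) and `t` (target). -/
def Intertwines (s : Spin ι) (t : Spin κ) (V : Matrix κ ι ℝ) : Prop :=
  t.E * V = V * s.E ∧ t.Eᵀ * V = V * s.Eᵀ ∧ t.Z * V = V * s.Z

omit [DecidableEq ι] [DecidableEq κ] in
lemma Intertwines.isHW {V : Matrix κ ι ℝ} (h : Intertwines s t V) (hv : s.IsHW w v) :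
    t.IsHW w (V *ᵥ v) := by
  refine ⟨?_, ?_⟩
  · rw [Matrix.mulVec_mulVec, h.1, ← Matrix.mulVec_mulVec, hv.1, Matrix.mulVec_zero]
  · rw [Matrix.mulVec_mulVec, h.2.2, ← Matrix.mulVec_mulVec, hv.2, Matrix.mulVec_smul]

omit [DecidableEq ι] [DecidableEq κ] in
lemma Intertwines.mulVec_lower {V : Matrix κ ι ℝ} (h : Intertwines s t V) (v : ι → ℝ) (k : ℕ) :
    V *ᵥ s.lower v k = t.lower (V *ᵥ v) k := by
  induction k with
  | zero => rfl
  | succ k ih =>
    rw [lower_succ, lower_succ, ← ih, Matrix.mulVec_mulVec, ← h.2.1, ← Matrix.mulVec_mulVec]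

omit [DecidableEq ι] [DecidableEq κ] in
/-- Compression of an invariant operator by an intertwiner is invariant. -/
theorem Intertwines.invariant_compress {V : Matrix κ ι ℝ} (h : Intertwines s t V)
    (hsZ : s.Z.IsSymm) (htZ : t.Z.IsSymm) {T : Matrix κ κ ℝ} (hT : t.Invariant T) :
    s.Invariant (Vᵀ * T * V) := by
  have h1 : Vᵀ * t.E = s.E * Vᵀ := by simpa using congrArg Matrix.transpose h.2.1
  have h2 : Vᵀ * t.Eᵀ = s.Eᵀ * Vᵀ := by simpa using congrArg Matrix.transpose h.1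
  have h3 : Vᵀ * t.Z = s.Z * Vᵀ := by
    simpa [hsZ.eq, htZ.eq] using congrArg Matrix.transpose h.2.2
  refine ⟨?_, ?_, ?_⟩
  · rw [Matrix.mul_assoc (Vᵀ * T), ← h.1, Matrix.mul_assoc Vᵀ T, ← Matrix.mul_assoc T, hT.1,
      Matrix.mul_assoc t.E, ← Matrix.mul_assoc, h1]
    simp only [Matrix.mul_assoc]
  · rw [Matrix.mul_assoc (Vᵀ * T), ← h.2.1, Matrix.mul_assoc Vᵀ T, ← Matrix.mul_assoc T, hT.2.1,
      Matrix.mul_assoc t.Eᵀ, ← Matrix.mul_assoc, h2]
    simp only [Matrix.mul_assoc]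
  · rw [Matrix.mul_assoc (Vᵀ * T), ← h.2.2, Matrix.mul_assoc Vᵀ T, ← Matrix.mul_assoc T, hT.2.2,
      Matrix.mul_assoc t.Z, ← Matrix.mul_assoc, h3]
    simp only [Matrix.mul_assoc]

/-- Tensoring an intertwiner with the identity. -/
theorem Intertwines.kronecker_one {V : Matrix κ ι ℝ} (h : Intertwines s t V) {μ : Type*}
    [Fintype μ] [DecidableEq μ] (r : Spin μ) :
    Intertwines (s.prod r) (t.prod r) (V ⊗ₖ (1 : Matrix μ μ ℝ)) := by
  refine ⟨?_, ?_, ?_⟩ <;>
  · simp only [Spin.prod, Matrix.kronecker, Matrix.transpose_add, ← Matrix.kroneckerMap_transpose,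
      Matrix.transpose_one, Matrix.add_mul, Matrix.mul_add, ← Matrix.mul_kronecker_mul,
      Matrix.one_mul, Matrix.mul_one, h.1, h.2.1, h.2.2]

end Spin

end Vale.Agent.P359
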